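import Vale.Agent.P144U.Stmt

/-!
Sign changes of the boundary condition at corners and at Lipschitz points.
-/

namespace Vale.Agent.P144C

open Metric Vale.Agent.P144 Vale.Agent.P144Z

/-- An intersection of two regions above graphs of slope `κ`. -/
def Two (κ : ℝ) (S : Set ℂ) : Prop :=
  ∃ (S₁ S₂ : Set ℂ) (ν₁ ν₂ : ℂ), ‖ν₁‖ = 1 ∧ ‖ν₂‖ = 1 ∧ Cone S₁ ν₁ κ ∧ Cone S₂ ν₂ κ ∧ S = S₁ ∩ S₂

/-- Near each boundary point `z` the outside of `D` lies in `P`, or lies outside `P`, or `D` is a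
region of the class `Ex` above the graph of a function with Lipschitz constant one, seen in
direction `ν`, and the outer points close to `D` lie in `P` on one side of the axis through `z`
and outside `P` on the other side. -/
def PWL (Ex : Set ℂ → Prop) (D P : Set ℂ) : Prop :=
  ∀ z ∈ frontier D, ∃ r > (0 : ℝ), ball z r \ D ⊆ P ∨ ball z r \ D ⊆ Pᶜ ∨
    ∃ (S : Set ℂ) (ν τ : ℂ) (α : ℝ), ‖ν‖ = 1 ∧ (τ = Complex.I * ν ∨ τ = -(Complex.I * ν)) ∧
      0 < α ∧ Cone S ν (√2 / 2) ∧ Ex S ∧ D ∩ ball z r = S ∩ ball z r ∧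
      ∀ w ∈ ball z r \ D, infDist w D < α * ‖w - z‖ →
        (w ∈ P ↔ 0 < (w - z).re * τ.re + (w - z).im * τ.im)

/-- The fixed boundary conditions with such sign changes. -/
def SignL (Ex : Set ℂ → Prop) (D : Set ℂ) (b : Option (ℝ → Config)) : Prop :=
  ∃ P, PWL Ex D P ∧ b = some (bcOf P)

end Vale.Agent.P144C
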