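import Vale.Agent.P144C.Defs0
import Vale.Agent.P144C.Stmt
import Vale.Agent.P144L.G.Bas
import Vale.Agent.P144D.I.N5a.B
import Vale.Agent.P144D.I.U.Lat

/-!
Sign changes at corners: definitions and the statements of the blocks.
-/

namespace Vale.Agent.P144C

open Finset Matrix Vale.Agent.P144Z Vale.Agent.P144L P144L.G

/-! ### Marks -/

/-- Within distance `r` of the vertex `z` the region lies above a graph of slope one, and the edge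
in direction `a` is removed. -/
structure Mk0 {M : ℕ} (I : Finset (Tor M)) (r : ℕ) (z : Tor M) (a : Fin 4) (ν : ℂ) : Prop where
  nrm : ‖ν‖ = 1
  cone : ∃ S, Epi S ν (√2 / 2) ∧ ∀ v : ℤ × ℤ, zd v 0 ≤ r → (z + prj M v ∈ I ↔ v ∈ S)
  rem : z - prj M (cn (a - 1)) ∉ I ∧ z - prj M (cn a) ∉ I
  touch : TouchT I z

/-- A mark on the torus. -/
structure MkT2 {M : ℕ} (I : Finset (Tor M)) (N r : ℕ) (z : Tor M) (a : Fin 4) (ν : ℂ) : Prop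
    extends Mk0 I r z a ν where
  tr : TrB I z r N

/-- The version of `TrB` in the plane lattice. -/
def TrZ (Λ : Finset (ℤ × ℤ)) (x : ℤ × ℤ) (r N : ℕ) : Prop :=
  ∃ Hs Vs : Finset (ℤ × ℤ), (∀ v, zd v x ≤ r → (∃ f ∈ Λ, zd f v ≤ 2) → (∃ f, f ∉ Λ ∧ zd f v ≤ 2) →
    v ∈ Hs ∨ v ∈ Vs) ∧
    (∀ t, (Hs.filter fun v => v.2 = t).card ≤ N) ∧ ∀ t, (Vs.filter fun v => v.1 = t).card ≤ N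

/-- A mark in the plane lattice. -/
structure MkZ2 (Λ : Finset (ℤ × ℤ)) (N r : ℕ) (x : ℤ × ℤ) (e : Fin 4) (ν : ℂ) : Prop where
  nrm : ‖ν‖ = 1
  cone : ∃ S, Epi S ν (√2 / 2) ∧ ∀ v : ℤ × ℤ, zd v 0 ≤ r → (x + v ∈ Λ ↔ v ∈ S)
  rem : RemE Λ x (e + 2)
  touch : Touch Λ x
  tr : TrZ Λ x r N

/-- Separated marks. -/
structure MkG2 (Λ : Finset (ℤ × ℤ)) (N r : ℕ) {k : ℕ} (x : Fin k → ℤ × ℤ) (e : Fin k → Fin 4)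
    (ν : Fin k → ℂ) : Prop where
  mk1 : ∀ i, MkZ2 Λ N r (x i) (e i) (ν i)
  sep : ∀ i i', i ≠ i' → r < zd (x i) (x i')

/-- The model of the region near a mark. -/
def ModM : Prop := ∀ N : ℕ, ∃ N' Q : ℕ, 1 ≤ Q ∧ ∀ (M : ℕ) [NeZero M] (I : Finset (Tor M)) (r : ℕ)
  (z : Tor M) (a : Fin 4) (ν : ℂ), MkT2 I N r z a ν → Q ≤ r → 64 * (tdist z 0 + r) ≤ M →
    ∃ I' : Finset (Tor M), Rgh I' N' (r / Q) ∧ (∀ f ∈ I', tdist f z ≤ r) ∧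
      ConnB I' 0 (tdist z 0 + r + 1) (tdist z 0 + r + 1) ∧ TrB I' 0 M N' ∧
      ∀ f, tdist f z ≤ r / Q → (f ∈ I' ↔ f ∈ I)

/-! ### Potential theory -/

/-- The lower bound on the deep square at the scale `ρ`. -/
def Dq (W : ℤ × ℤ → ℝ) (ν : ℂ) (ρ : ℕ) (A : ℝ) : Prop := ∀ v, 10 * zd v (rd ν ρ) ≤ ρ → A ≤ W v

/-- A positive superharmonic function dominates the subharmonic functions. -/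
def MasM : Prop := ∃ Q ρ₀ : ℕ, ∃ c > (0 : ℝ), 1 ≤ Q ∧ ∀ out ν (y : ℤ × ℤ) (ρ : ℕ)
  (w g : ℤ × ℤ → ℝ) (A G : ℝ), Ou out ν → Bp out y → zd y 0 ≤ 1 → ρ₀ ≤ ρ → 0 ≤ A → 0 ≤ G →
    (∀ v, zd v 0 ≤ Q * ρ → 0 ≤ w v ∧ (¬ out v → SupH w v)) → Dq w ν ρ A →
    (∀ v, zd v 0 ≤ Q * ρ → g v ≤ G ∧ (out v → g v ≤ 0) ∧ (¬ out v → SupH (-g) v)) →
      ∀ v, zd v 0 ≤ ρ → c * A * g v ≤ G * w v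

/-- A positive superharmonic function decays at most quadratically. -/
def LowM : Prop := ∃ Q ρ₀ : ℕ, ∃ c > (0 : ℝ), 1 ≤ Q ∧ ∀ out ν (y : ℤ × ℤ) (ρ : ℕ)
  (w : ℤ × ℤ → ℝ) (A : ℝ), Ou out ν → Bp out y → zd y 0 ≤ 1 → 0 ≤ A →
    (∀ v, zd v 0 ≤ Q * ρ → 0 ≤ w v ∧ (¬ out v → SupH w v)) → Dq w ν ρ A →
      ∀ s : ℕ, ρ₀ ≤ s → s ≤ ρ → Dq w ν s (c * A * ((s : ℝ) / ρ) ^ 2)

section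

variable {M : ℕ} [NeZero M]

/-- A homogeneous solution whose pair is nonnegative. -/
structure PP (I : Finset (Tor M)) (z : Tor M) (R : ℕ) (φ : Tor M × Fin 4 → ℝ)
    (U W : ℤ × ℤ → ℝ) : Prop where
  dif : ∀ v k, zd v 0 ≤ R → U v - W (v - cn k) = chi φ (z + prj M v) k ^ 2
  nn : ∀ v, zd v 0 ≤ R + 1 → 0 ≤ W v
  zero : ∀ v, zd v 0 ≤ R + 1 → z + prj M v ∉ I → W v = 0
  sup : ∀ v, zd v 0 ≤ R → z + prj M v ∈ I → SupH W v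
  sub : ∀ v, zd v 0 ≤ R → 0 ≤ ∑ a, GG U ((IN5a.rg I).pr z) v a ∧
    ∑ k, chi φ (z + prj M v) k ^ 2 ≤ 7 * ∑ a, |GG U ((IN5a.rg I).pr z) v a|
  hom : Hom (pwI I) z R φ

/-- The squared norm on the square of radius `s`. -/
noncomputable abbrev l2 (z : Tor M) (φ : Tor M × Fin 4 → ℝ) (s : ℕ) : ℝ := l2sq (ball z s) φ

/-- A reference solution for the half-edge `s`, between the scales `s₀` and `ρ`. -/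
structure Rf (A : Gauge M) (t : Tor M × Fin 4) (φ₀ : Tor M × Fin 4 → ℝ) (s₀ ρ : ℕ) (C : ℝ)
    (Kf : ℝ → ℕ) : Prop where
  one : φ₀ t = 1
  hom : Hom A t.1 ρ φ₀
  bot : l2 t.1 φ₀ s₀ ≤ C
  size : ∀ s σ, s₀ ≤ s → s ≤ σ → σ ≤ ρ → ∀ φ, Hom A t.1 σ φ →
    l2 t.1 φ s * l2 t.1 φ₀ σ ≤ C * l2 t.1 φ₀ s * l2 t.1 φ σ
  rank : ∀ η > (0 : ℝ), ∀ s σ, s₀ ≤ s → Kf η * s ≤ σ → σ ≤ ρ → ∀ φ, Hom A t.1 σ φ →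
    l2 t.1 (φ - φ t • φ₀) s * l2 t.1 φ₀ σ ≤ η * l2 t.1 φ₀ s * l2 t.1 φ σ
  low : ∀ s σ, s₀ ≤ s → s ≤ σ → σ ≤ ρ → l2 t.1 φ₀ σ * (s : ℝ) ^ 3 ≤ C * (σ : ℝ) ^ 3 * l2 t.1 φ₀ s
  upp : ∀ η > (0 : ℝ), ∀ s σ, s₀ ≤ s → Kf η * s ≤ σ → σ ≤ ρ →
    l2 t.1 φ₀ s * σ ≤ η * s * l2 t.1 φ₀ σ

end

/-- The comparison at all scales near a source. -/
def AllM : Prop := ∃ Q ρ₀ : ℕ, ∃ c > (0 : ℝ), 1 ≤ Q ∧ ∀ (M : ℕ) [NeZero M] (I : Finset (Tor M))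
  (r R : ℕ) (z : Tor M) (a : Fin 4) (ν : ℂ) φ U W, Mk0 I r z a ν → IN5a.LD I z (z, a) R φ U W →
    R ≤ r → 2 * R < M → ∀ ρ, ρ₀ ≤ ρ → Q * ρ ≤ R → ∀ v, zd v 0 = ρ → Dq W ν ρ (c * U v)

/-- Nondegeneracy passes to all smaller scales. -/
def NdM : Prop := ∃ Q ρ₀ : ℕ, ∃ c > (0 : ℝ), 1 ≤ Q ∧ ∀ (M : ℕ) [NeZero M] (I : Finset (Tor M))
  (r R : ℕ) (z : Tor M) (a : Fin 4) (ν : ℂ) φ U W, Mk0 I r z a ν → PP I z R φ U W → R ≤ r →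
    2 * R < M → ∀ (ρ : ℕ) (γ A : ℝ), Q * ρ ≤ R → 0 < γ → γ ≤ 1 → Dq W ν ρ A →
    (∀ v, zd v 0 ≤ 8 * ρ → γ * U v ≤ A) → ∀ s, ρ₀ ≤ s → s ≤ ρ →
      ∃ A', Dq W ν s A' ∧ ∀ v, zd v 0 ≤ 4 * s → c * γ * U v ≤ A'

/-- The norms of the field in terms of the pair. -/
def NrmM : Prop := ∃ (C : ℝ) (ρ₀ : ℕ), 1 ≤ C ∧ ∀ ρ ≥ ρ₀, ∃ c > (0 : ℝ), ∀ (M : ℕ) [NeZero M]
  (I : Finset (Tor M)) (r R : ℕ) (z : Tor M) (a : Fin 4) (ν : ℂ) φ U W, Mk0 I r z a ν →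
    PP I z R φ U W → R ≤ r → 2 * R < M → ∀ A : ℝ,
    (∀ s, ρ₀ ≤ s → 4 * s ≤ R → (0 ≤ A → Dq W ν s A → s * A ≤ C * l2 z φ (2 * s)) ∧
      ((∀ v, zd v 0 ≤ 4 * s → U v ≤ A) → l2 z φ s ≤ C * s * A)) ∧
    (20 * ρ ≤ R → Dq W ν ρ A → c * A ≤ φ (z, a) ^ 2)

/-- A nondegenerate positive solution exists. -/
def RefM : Prop := ∀ N n : ℕ, ∃ Q ρ₀ : ℕ, ∃ γ > (0 : ℝ), γ ≤ 1 ∧ ∀ (M : ℕ) [NeZero M]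
  (I : Finset (Tor M)) (r : ℕ) (z : Tor M) (a : Fin 4) (ν : ℂ), MkT2 I N r z a ν →
    64 * (tdist z 0 + r) ≤ M → ∀ ρ, ρ₀ ≤ ρ → Q * ρ ≤ r → ∃ φ U W, ∃ A > (0 : ℝ),
      PP I z (n * ρ) φ U W ∧ Dq W ν ρ A ∧ ∀ v, zd v 0 ≤ n * ρ → γ * U v ≤ A

/-- One change of scale, relatively to a nondegenerate positive solution. -/
def OneM : Prop := ∀ N : ℕ, ∃ Q : ℕ, 1 ≤ Q ∧ ∀ γ > (0 : ℝ), ∃ C : ℝ, 1 ≤ C ∧ ∀ η > (0 : ℝ),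
  ∃ K s₀ : ℕ, 2 ≤ K ∧ ∀ (M : ℕ) [NeZero M] (I : Finset (Tor M)) (r : ℕ) (z : Tor M) (a : Fin 4)
    (ν : ℂ) (s : ℕ) φ₀ U₀ W₀ (A₀ : ℝ), Mk0 I r z a ν → Rgh I N r → 4 * r ≤ M → s₀ ≤ s →
    Q * (K * s) ≤ r → PP I z (Q * (K * s)) φ₀ U₀ W₀ → 0 < A₀ → Dq W₀ ν (K * s) A₀ →
    γ * l2 z φ₀ (K * s) ≤ K * s * A₀ →
    (∀ φ, Hom (pwI I) z (K * s) φ →
      l2 z φ s * l2 z φ₀ (K * s) ≤ C * l2 z φ₀ s * l2 z φ (K * s) ∧ ∃ t : ℝ,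
        l2 z (φ - t • φ₀) s * l2 z φ₀ (K * s) ≤ η * l2 z φ₀ s * l2 z φ (K * s)) ∧
    ∀ (W : ℤ × ℤ → ℝ) (A : ℝ), 0 ≤ A →
      (∀ v, zd v 0 ≤ Q * (K * s) → 0 ≤ W v ∧ (z + prj M v ∈ I → SupH W v)) → Dq W ν (K * s) A →
        ∃ A', Dq W ν s A' ∧ A * K * l2 z φ₀ s ≤ C * A' * l2 z φ₀ (K * s)

/-- The reference solution. -/
def HomM : Prop := ∀ N : ℕ, ∃ (Q s₀ : ℕ) (C : ℝ) (Kf : ℝ → ℕ), 8 ≤ s₀ ∧ 1 ≤ C ∧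
  ∀ (M : ℕ) [NeZero M] (I : Finset (Tor M)) (r : ℕ) (z : Tor M) (a : Fin 4) (ν : ℂ) (ρ : ℕ),
    MkT2 I N r z a ν → 64 * (tdist z 0 + r) ≤ M → s₀ ≤ ρ → Q * ρ ≤ r →
      ∃ φ₀, Rf (pwI I) (z, a) φ₀ s₀ ρ C Kf

/-- A positive solution does not vanish at the mark. -/
def PosV : Prop := ∀ N : ℕ, ∃ Q : ℕ, 1 ≤ Q ∧ ∀ Q' : ℝ, ∃ c₀ > (0 : ℝ), ∃ ρ₀ : ℕ,
  ∀ (M : ℕ) [NeZero M] (I : Finset (Tor M)) (r : ℕ) (z : Tor M) (a : Fin 4) (ν : ℂ) (ρ : ℕ),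
    MkT2 I N r z a ν → 64 * (tdist z 0 + r) ≤ M → ρ₀ ≤ ρ → Q * ρ ≤ r → ∀ φ U W (A : ℝ) u,
    PP I z (Q * ρ) φ U W → 0 ≤ A → Dq W ν ρ A → l2 z φ ρ ≤ Q' * A * ρ → Hom (pwI I) z ρ u →
    u (z, a) = 1 → c₀ * A * ρ ≤ φ (z, a) ^ 2 * l2 z u ρ

/-- From the reference solution to the chain of sizes. -/
def MkAbs : Prop := ∀ (C c₁ : ℝ) (s₀ : ℕ) (Kf : ℝ → ℕ), 1 ≤ C → 1 ≤ c₁ → 8 ≤ s₀ →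
  ∃ c : ℝ, 1 ≤ c ∧ ∀ η > (0 : ℝ), ∃ L₀ : ℕ, ∀ L ≥ L₀, ∀ (M : ℕ) [NeZero M] (A : Gauge M)
    (t : Tor M × Fin 4) φ₀ (J : ℕ), IsW A → 1 ≤ J → Rf A t φ₀ s₀ (3 * sc L J) C Kf →
    Solv A t.1 8 (3 * sc L J) c₁ → ∃ u ν, MkCh2 A L J t u ν c η

/-- The sizes of a marked half-edge. -/
def MkStmt2 : Prop := ∀ N : ℕ, ∃ c : ℝ, 1 ≤ c ∧ ∃ C₀ : ℕ, ∀ η > (0 : ℝ), ∃ L₀ : ℕ, ∀ L ≥ L₀,
  ∀ (M : ℕ) [NeZero M] (I : Finset (Tor M)) (r J : ℕ) (z : Tor M) (a : Fin 4) (ν : ℂ),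
    MkT2 I N r z a ν → 64 * (tdist z 0 + r) ≤ M → 1 ≤ J → C₀ * sc L J ≤ r →
      ∃ u ν', MkCh2 (pwI I) L J (z, a) u ν' c η

/-- The lower bound on the partition function with sign changes. -/
def LB2 : Prop := ∀ (N₀ : ℕ) (c : ℝ), 1 ≤ c → ∀ L ≥ 8, ∀ C : ℕ, ∃ C₀ : ℕ, ∀ N : ℕ, ∃ c₀ > (0 : ℝ),
  ∃ J₀ : ℕ, ∀ J ≥ J₀, ∀ (M : ℕ) [NeZero M] (Λ : Finset (ℤ × ℤ)) (T r H k : ℕ) (a : ℤ × ℤ)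
    (hs : Fin H → ℤ × ℤ) (x : Fin k → ℤ × ℤ) (e : Fin k → Fin 4) (νc : Fin k → ℂ) (η : ℝ)
    (u : Fin k → ℕ → Tor M × Fin 4 → ℝ) (ν : Fin k → ℕ → ℝ) (n₀ : Tor M × Fin 2 → Bool),
    DeepOK Λ C r → (∀ v ∈ Λ, zd v 0 ≤ T) → prj M a ∉ Λ.image (prj M) →
    (∀ i, prj M (hs i) ∉ Λ.image (prj M)) → UL.Cn M Λ a hs → H ≤ N → k ≤ N →
    MkG2 Λ N₀ r x e νc → C₀ * sc L J ≤ r → r ≤ T → T ≤ N * sc L J → 128 * T ≤ M →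
    (∀ i, MkCh2 (pwI (Λ.image (prj M))) L J (mkS M x e i) (u i) (ν i) c η) →
    (∀ e', n₀ e' = true → pwI (Λ.image (prj M)) e' = 1) →
    (∀ v, dgr n₀ v = -1 ↔ ∃ i, v = prj M (x i)) →
      c₀ * (∏ i, ν i J) * Zw par0 (pwI (Λ.image (prj M))) 1 ≤
        Yn (Λ.image (prj M)) (tc • pwI (Λ.image (prj M))) n₀

/-- Two connected marks are joined by a corridor. -/
def PathM : Prop := ∀ N₀ C : ℕ, ∃ C₀ : ℕ, ∀ Λ₀ : ℕ, ∃ N : ℕ, ∀ (Λ : Finset (ℤ × ℤ)) (T r q : ℕ)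
  (a b : ℤ × ℤ) (ea eb : Fin 4) (νa νb : ℂ), DeepOK Λ C r → (∀ v ∈ Λ, zd v 0 ≤ T) →
    T ≤ Λ₀ * q → C₀ ≤ q → C₀ * q ≤ r → r ≤ T → MkZ2 Λ N₀ r a ea νa → MkZ2 Λ N₀ r b eb νb →
    r < zd a b → PrConn Λ a b → ∀ (M : ℕ) [NeZero M], 64 * T ≤ M →
      ∃ U ⊆ Λ.image (prj M), Corr U T q N (prj M a + prj M (rd νa (8 * q)))
        (prj M b + prj M (rd νb (8 * q))) ∧ Side U (Λ.image (prj M)) (prj M a) (16 * q) ∧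
        Side U (Λ.image (prj M)) (prj M b) (16 * q)

/-! ### The lattice -/

open P144 UL ELat in
/-- The pairs of the class `Raw` can be dug and marked. -/
def GeoK2 (Raw : Finset Site → Config → ℕ → Prop) (Q : Cls) (L N₀ : ℕ) : Prop :=
  ∃ t N D Cd J₁ : ℕ, 1 ≤ t ∧ 1 ≤ D ∧ ∀ R₀ : ℕ, ∃ K : ℕ, ∀ Λ₀ : ℕ, ∃ k₀ : ℕ, ∀ (Λ : Finset Site)
    (b : Config) (r T : ℕ), Raw Λ b r → D * (K + 1) ≤ r → r ≤ T → (∀ v ∈ Λ, zd v 0 ≤ T) →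
    (∀ v ∈ Λ, zd v 0 ≤ Λ₀ * r) → ∃ (P : Finset Site) (b₁ b' : Config) (k : ℕ) (x : Fin k → Site)
      (e : Fin k → Fin 4) (ν : Fin k → ℂ), k ≤ k₀ ∧
      (∀ p ∈ P, zd p 0 ≤ T + t ∧ ∃ v, v ∉ Λ ∧ zd v p ≤ t) ∧
      (∀ p ∈ P, ∀ p' ∈ P, p ≠ p' → r / D < zd p p') ∧ (∀ v, v ∉ Λ → b₁ v = b v) ∧
      (∀ p ∈ P, ∀ v, zd v p ≤ r / D → v ∉ dig Λ P t → b₁ v = b₁ p) ∧
      MkG2 (dig Λ P t) N₀ (r / D) x e ν ∧ MkB (dig Λ P t) b₁ b' R₀ K x e ∧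
      (∀ p ∈ P, ∀ i, r / D < zd (x i) p) ∧ DeepOK (dig Λ P t) Cd (r / D) ∧
      ∀ (M : ℕ) [NeZero M], 4 * (T + r) ≤ M → Rgh ((dig Λ P t).image (prj M)) N (r / D) ∧
        ∀ (B : Gauge M) (ρ J : ℕ), Str (pwI ((dig Λ P t).image (prj M))) B ρ → ρ ≤ r / D →
          J₁ ≤ J → D * sc L J ≤ ρ → Q M (pwI ((dig Λ P t).image (prj M)) * B) J

open P144 UL in
/-- Universality for the pairs of the class `Raw`, with `m` energies. -/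
def LatOK2 (Raw : Finset Site → Config → ℕ → Prop) (q : Par) (Zσ Zε : ℝ) (m : ℕ) : Prop :=
  ∀ J lam β : ℝ, 0 < J → q.μ = β * lam → q.x = Real.exp (-(2 * β * J)) → ∀ n Λ₀ : ℕ, ∀ ε > 0,
    ∃ r₀ : ℕ, ∀ r ≥ r₀, ∀ (Λ : Finset Site) (b : Config) (x : Fin n → Site) (y : Fin m → Site)
      (j : Fin m → Fin 2), Raw Λ b r → (∀ v ∈ Λ, zd v 0 ≤ Λ₀ * r) → Spins Λ r (Sum.elim x y) →
        |lcor (gibbs J lam q.V β (some b) Λ) x y j -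
          Zσ ^ n * Zε ^ m * lcor (gibbs J 0 (fun _ => 0) (Kc / J) (some b) Λ) x y j| ≤
          ε * (r : ℝ) ^ (-((n : ℝ) / 8)) / (r : ℝ) ^ m

open P144 in
/-- Universality on the lattice. -/
def LatK2 : Prop := ∀ N₀ : ℕ, ∃ c' : ℝ, 1 ≤ c' ∧ ∀ η₁ > (0 : ℝ), ∃ L₀ : ℕ, ∀ L ≥ L₀,
  ∀ (Raw : Finset Site → Config → ℕ → Prop) (Q : Cls) (q : Par) (Zσ Zε Zσ' Zε' : ℝ) (m : ℕ),
    q.Ok → q.Small 1 → UnivJK2 Q q Zσ Zε L c' η₁ m → UnivJK2 Q par0 Zσ' Zε' L c' η₁ m →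
    GeoK2 Raw Q L N₀ → LatOK2 Raw q Zσ Zε m

/-- The lattice version of `PWL`: the sign changes are near the points of `F`. -/
structure BcM (Ex : Set (ℤ × ℤ) → Prop) (Λ : Finset (ℤ × ℤ)) (b : ℤ × ℤ → Bool)
    (F : Finset (ℤ × ℤ)) (n r : ℕ) : Prop where
  sep : ∀ p ∈ F, ∀ p' ∈ F, p ≠ p' → 2 * r < zd p p'
  chart : ∀ p ∈ F, ∃ (S : Set (ℤ × ℤ)) (ν τ : ℂ), ‖ν‖ = 1 ∧
    (τ = Complex.I * ν ∨ τ = -(Complex.I * ν)) ∧ Epi S ν (√2 / 2) ∧ Ex S ∧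
    (∃ f ∈ S, zd f 0 ≤ 4) ∧ (∃ f, f ∉ S ∧ zd f 0 ≤ 4) ∧
    (∀ v, zd v 0 ≤ r → (p + v ∈ Λ ↔ v ∈ S)) ∧
    ∀ v, zd v 0 ≤ r → p + v ∉ Λ → ∀ u ∈ Λ, n * (zd u (p + v) + 1) ≤ zd v 0 →
      (b (p + v) = true ↔ 0 < ht τ v)
  far : ∀ z, (∀ p ∈ F, r < 2 * zd z p) → (∃ u ∈ Λ, n * zd u z ≤ r) →
    ∃ β, ∀ v, n * zd v z ≤ r → v ∉ Λ → b v = β

/-- The lattice version of `Two`. -/
def TwoZ (κ : ℝ) (S : Set (ℤ × ℤ)) : Prop :=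
  ∃ (S₁ S₂ : Set (ℤ × ℤ)) (ν₁ ν₂ : ℂ), ‖ν₁‖ = 1 ∧ ‖ν₂‖ = 1 ∧ Epi S₁ ν₁ κ ∧ Epi S₂ ν₂ κ ∧
    S = S₁ ∩ S₂

/-- From the plane to the lattice. -/
def PwM : Prop := ∀ (Ex : Set ℂ → Prop) (ExZ : Set (ℤ × ℤ) → Prop),
  (∀ S, Ex S → ∀ a > (0 : ℝ), ∀ p : ℤ × ℤ,
    ExZ {v | (⟨a * (p + v).1, a * (p + v).2⟩ : ℂ) ∈ S}) →
  ∀ D P : Set ℂ, IsOpen D → Bornology.IsBounded D → PWL Ex D P → ∃ ρ > (0 : ℝ), ∃ n : ℕ, 1 ≤ n ∧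
    ∀ a > (0 : ℝ), ∀ Λ : Finset (ℤ × ℤ), (∀ x, x ∈ Λ ↔ (⟨a * x.1, a * x.2⟩ : ℂ) ∈ D) →
      ∀ r : ℕ, n ≤ r → a * r ≤ ρ → ∃ F, BcM ExZ Λ (bcOf P a) F n r

/-- The marked points of a boundary condition. -/
def MarkM : Prop := ∀ n R₀ : ℕ, ∃ K : ℕ, ∀ (Ex : Set (ℤ × ℤ) → Prop) (Λ : Finset (ℤ × ℤ))
  (b : ℤ × ℤ → Bool) (F : Finset (ℤ × ℤ)) (N r : ℕ), BcM Ex Λ b F n r → 8 * K ≤ r →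
    (∀ p ∈ F, TrZ Λ p r N) → ∃ (x : Fin F.card → ℤ × ℤ) (e : Fin F.card → Fin 4)
      (ν : Fin F.card → ℂ) (b' : ℤ × ℤ → Bool), MkG2 Λ N (r / 2) x e ν ∧ MkB Λ b b' R₀ K x e ∧
        ∀ i, ∃ p ∈ F, zd (x i) p ≤ K

/-- The geometry for the Lipschitz domains. -/
def GeoL2 : Prop := ∀ κ : ℝ, κ < √2 / 2 → ∃ N₀ : ℕ, ∀ ε > (0 : ℝ), ∃ L₀ : ℕ, ∀ L ≥ L₀, ∀ k, 1 ≤ k →
  ∀ n, GeoK2 (fun Λ b r => LipZ κ Λ r ∧ ∃ F, BcM (fun _ => True) Λ b F n r) (QU L ε k 0) L N₀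

/-- The geometry for the domains with corners. -/
def GeoT2 : Prop := ∃ N₀ : ℕ, ∀ ε > (0 : ℝ), ∃ L₀ : ℕ, ∀ L ≥ L₀, ∀ α > (0 : ℝ),
  ∃ κ₀ > (0 : ℝ), ∃ N k₀ : ℕ, ∀ k ≥ k₀, ∀ κ, 0 < κ → κ ≤ κ₀ → ∀ n,
    GeoK2 (fun Λ b r => (∃ P, RawU Λ P α κ r) ∧ ∃ F, BcM (TwoZ κ) Λ b F n r) (QU L ε k N) L N₀

end Vale.Agent.P144C
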