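import Vale.Agent.P144C.T.Tip
import Vale.Agent.P144L.F.All

/-!
Sign changes at corners: the Lipschitz sets can be marked.
-/

namespace Vale.Agent.P144C

open Finset Vale.Agent.P144Z P144 UL B5a2 ICg Vale.Agent.P144L P144L.G

theorem cov_rows {P : ℤ × ℤ → Prop} {n : ℕ}
    (h : ∀ v v', P v → P v' → v.2 = v'.2 → v'.1 ≤ v.1 + n) : Cov P (2 * n + 1) := by
  classical
  refine ⟨fun t => if k : ∃ a, P (a, t) then Icc (k.choose - n) (k.choose + n) else ∅,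
    fun _ => ∅, fun t => ⟨?_, by simp⟩, fun v hv => Or.inl ?_⟩
  · beta_reduce
    split_ifs
    · rw [Int.card_Icc]
      omega
    · simp
  · have k : ∃ a, P (a, v.2) := ⟨v.1, hv⟩
    have h1 := h _ _ hv k.choose_spec rfl
    have h2 := h _ _ k.choose_spec hv rfl
    beta_reduce
    rw [dif_pos k, mem_Icc]
    dsimp only at h1 h2
    omega

theorem cov_cols {P : ℤ × ℤ → Prop} {n : ℕ}
    (h : ∀ v v', P v → P v' → v.1 = v'.1 → v'.2 ≤ v.2 + n) : Cov P (2 * n + 1) := by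
  obtain ⟨H, V, h1, h2⟩ := cov_rows (P := fun v => P v.swap) fun v v' => h v.swap v'.swap
  exact ⟨V, H, fun t => (h1 t).symm, fun v hv => (h2 v.swap hv).symm⟩

theorem cov_lip {κ : ℝ} (hκ : κ < √2 / 2) : ∃ N : ℕ, ∀ (S : Set (ℤ × ℤ)) (ν : ℂ), ‖ν‖ = 1 →
    Epi S ν κ → Cov (Lay S) N := by
  have k0 : 0 ≤ max κ 0 := le_max_right _ _
  have d0 : 0 < √2 / 2 - max κ 0 := sub_pos.2 (max_lt hκ (by positivity))
  obtain ⟨n₁, hn⟩ := exists_nat_ge (12 / (√2 / 2 - max κ 0))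
  rw [div_le_iff₀ d0] at hn
  refine ⟨2 * n₁ + 1, fun S ν a b => ?_⟩
  obtain ⟨e, -, ue, -, h1, -⟩ := exists_ax a
  have nd : ∀ x x', Lay S x → Lay S x' → ∀ n : ℕ, x' - x = n • e → n ≤ n₁ := by
    rintro x x' ⟨⟨u, u2, u1⟩, -⟩ ⟨-, u', u4, u3⟩ n hn'
    by_contra hc
    obtain ⟨q1, q2, -⟩ := nsmul_est ν e n
    have q3 := B1b.zd_sub (u' - x') (u - x)
    rw [← P144L.G.zd_sub u, ← P144L.G.zd_sub u'] at q3
    have q4 : u' - u = n • e + (u' - x' - (u - x)) := by rw [← hn']; abel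
    generalize u' - x' - (u - x) = d at q3 q4
    have q5 : (zd d 0 : ℝ) ≤ 4 := by exact_mod_cast (by omega : zd d 0 ≤ 4)
    have q6 := len_zd d
    have q7 := len_add (n • e) d
    have q8 := (abs_le.1 (abs_ht a d)).1
    have q9 : (n₁ : ℝ) ≤ n := by exact_mod_cast (by omega : n₁ ≤ n)
    rw [ue.len.1] at q2
    have := GeoA.epi_mono b (le_max_left κ 0) u u2 (u' - u) (by
      rw [q4, B1b.ht_add, q1]
      have r1 := mul_le_mul_of_nonneg_left (show len (n • e + d) ≤ n + 6 by linarith) k0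
      have r2 := mul_le_mul_of_nonneg_left h1 (Nat.cast_nonneg (α := ℝ) n)
      have r3 := mul_le_mul_of_nonneg_right q9 d0.le
      have := s2_le
      linarith)
    rw [add_sub_cancel] at this
    exact u4 this
  rcases ue with rfl | rfl | rfl | rfl
  · refine cov_rows fun v v' a1 a2 a3 => ?_
    by_contra hc
    have := nd v v' a1 a2 (v'.1 - v.1).toNat (Prod.ext (by simp; omega) (by simp; omega))
    omega
  · refine cov_cols fun v v' a1 a2 a3 => ?_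
    by_contra hc
    have := nd v v' a1 a2 (v'.2 - v.2).toNat (Prod.ext (by simp; omega) (by simp; omega))
    omega
  · refine cov_rows fun v v' a1 a2 a3 => ?_
    by_contra hc
    have := nd v' v a2 a1 (v'.1 - v.1).toNat (Prod.ext (by simp; omega) (by simp; omega))
    omega
  · refine cov_cols fun v v' a1 a2 a3 => ?_
    by_contra hc
    have := nd v' v a2 a1 (v'.2 - v.2).toNat (Prod.ext (by simp; omega) (by simp; omega))
    omega

theorem trZ_lip {κ : ℝ} (hκ : κ < √2 / 2) : ∃ N : ℕ, ∀ (Λ : Finset (ℤ × ℤ)) (r : ℕ),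
    LipZ κ Λ r → ∀ p, TrZ Λ p r N := by
  obtain ⟨N, hN⟩ := cov_lip hκ
  refine ⟨N + 12, fun Λ r h p => ?_⟩
  obtain ⟨S, ν, n1, e1, h⟩ := h p
  have key : ∀ f, zd f p ≤ r → (f ∈ Λ ↔ f - p ∈ S) := fun f hf => by
    rw [← h (f - p) (by rwa [IConv.zd_sub_zero]), add_sub_cancel]
  refine trZ_of_cov (((hN _ ν n1 (epi_shift e1 p)).or (((cov_row (p.2 + r) 1).or
    (cov_row (p.2 - r) 1)).or ((cov_col (p.1 + r) 1).or (cov_col (p.1 - r) 1)))).mono
      (fun v ⟨hv, ⟨f, a1, a2⟩, f', a3, a4⟩ => ?_) le_rfl)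
  by_cases h1 : zd v p + 2 ≤ r
  · have b1 := GeoA.zd_tri f v p
    have b2 := GeoA.zd_tri f' v p
    exact Or.inl ⟨⟨f, (key f (by omega)).1 a1, a2⟩, f', fun k => a3 ((key f' (by omega)).2 k), a4⟩
  · simp only [zd] at hv h1
    refine Or.inr ?_
    omega

theorem geoL2 (hM : MarkM) : GeoL2 := by
  intro κ hκ
  obtain ⟨N₀, hN₀⟩ := trZ_lip hκ
  refine ⟨N₀, fun ε hε => ?_⟩
  obtain ⟨L₀, N, D, hD1, h⟩ := F.cls torL rghL F.bdL hκ hε
  obtain ⟨C, Q, hQ, hD⟩ := deepL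
  refine ⟨L₀, fun L hL k k1 n => ⟨1, N, D + Q + 8, C, k, le_rfl, by omega, fun R₀ => ?_⟩⟩
  obtain ⟨K, hM⟩ := hM n R₀
  refine ⟨K, fun Λ₀ => ⟨(Λ₀ + 1 + 1) ^ 2, fun Λ b r T ⟨h1, F, hb⟩ h0 _ h3 hΛ₀ => ?_⟩⟩
  have h2 : D + Q + 8 ≤ r := (Nat.le_mul_of_pos_right _ K.succ_pos).trans h0
  have h4 : 8 * (K + 1) ≤ r := (Nat.mul_le_mul_right _ (by omega)).trans h0
  obtain ⟨x, e, ν, b', mg, mb, -⟩ := hM _ Λ b F N₀ r hb (by omega) fun f _ => hN₀ Λ r h1 f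
  have cF : F.card ≤ (Λ₀ + 1 + 1) ^ 2 := B5a2.card_net (T := Λ₀ * r + 4) (fun f hf => by
    obtain ⟨S, ν, τ, -, -, -, -, ⟨g, b3, b5⟩, -, b4, -⟩ := hb.chart f hf
    have b6 := hΛ₀ _ ((b4 g (by omega)).2 b3)
    have b7 := GeoA.zd_tri f (f + g) 0
    rw [GeoA.zd_comm f (f + g), IConv.zd_add_left] at b7
    omega) hb.sep (by
      rw [show (Λ₀ + 1) * (2 * r + 1) = 2 * (Λ₀ * r) + Λ₀ + 2 * r + 1 by ring]
      omega)
  refine ⟨∅, b, b', _, x, e, ν, cF, by simp, by simp, fun _ _ => rfl, by simp, ?_, ?_, by simp, ?_,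
    fun M _ hM => ?_⟩ <;> rw [P144L.F.dig_empty]
  · exact mg.mono (Nat.div_le_div_left (by omega) two_pos)
  · exact mb
  · exact (hD Λ r (P144L.F.lipZ_mono h1 hκ.le le_rfl) (by omega)).mono
      (Nat.div_le_div_left (by omega) hQ)
  · obtain ⟨a, b⟩ := h L hL k k1 (D + Q + 8) (by omega) Λ r T h1 h2 h3 M hM
    exact ⟨a, b false⟩

end Vale.Agent.P144C
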