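import Vale.Agent.P144L.F.All
import Vale.Agent.P144C.E.All
import Vale.Agent.P144C.Defs

/-!
Universality with sign changes at corners: the assembly.
-/

namespace Vale.Agent.P144C

open Filter Topology Vale.Agent.P144 Vale.Agent.P144Z U2D Set AN Vale.Agent.P144L P144L.F

theorem GeoK2.mono {Raw : Finset Site → Config → ℕ → Prop} {Q : Cls} {L N N' : ℕ}
    (h : GeoK2 Raw Q L N) (hN : N ≤ N') : GeoK2 Raw Q L N' := by
  obtain ⟨t, N₁, D, Cd, J₁, h1, h2, h⟩ := h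
  refine ⟨t, N₁, D, Cd, J₁, h1, h2, fun R₀ => (h R₀).imp fun K h Λ₀ => (h Λ₀).imp
    fun k₀ h Λ b r T a1 a2 a3 a4 a5 => ?_⟩
  obtain ⟨P, b₁, b', k, x, e, ν, c1, c2, c3, c4, c5, c6, c7⟩ := h Λ b r T a1 a2 a3 a4 a5
  refine ⟨P, b₁, b', k, x, e, ν, c1, c2, c3, c4, c5, ⟨fun i => ?_, c6.sep⟩, c7⟩
  obtain ⟨d1, d2, d3, d4, Hs, Vs, d5, d6, d7⟩ := c6.mk1 i
  exact ⟨d1, d2, d3, d4, Hs, Vs, d5, fun t => (d6 t).trans hN, fun t => (d7 t).trans hN⟩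

theorem epi_lat {S : Set ℂ} {ν : ℂ} {κ a : ℝ} (h : Cone S ν κ) (ha : 0 < a) (p : ℤ × ℤ) :
    Epi {v | (⟨a * (p + v).1, a * (p + v).2⟩ : ℂ) ∈ S} ν κ := by
  intro u hu v hv
  have e : ‖(⟨a * v.1, a * v.2⟩ : ℂ)‖ = a * len v := by
    rw [G.len_eq, show (⟨a * v.1, a * v.2⟩ : ℂ) = a * ⟨v.1, v.2⟩ by apply Complex.ext <;> simp,
      norm_mul, Complex.norm_of_nonneg ha.le]
  have := h _ hu ⟨a * v.1, a * v.2⟩ (by
    rw [e]
    have := mul_le_mul_of_nonneg_left hv ha.le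
    simp only [ht] at this
    linarith)
  rw [Set.mem_ofPred_eq]
  convert this using 1
  apply Complex.ext <;> simp <;> ring

theorem two_lat {κ : ℝ} (S : Set ℂ) (h : Two κ S) (a : ℝ) (ha : a > 0) (p : ℤ × ℤ) :
    TwoZ κ {v | (⟨a * (p + v).1, a * (p + v).2⟩ : ℂ) ∈ S} := by
  obtain ⟨S₁, S₂, ν₁, ν₂, n1, n2, c1, c2, rfl⟩ := h
  exact ⟨_, _, ν₁, ν₂, n1, n2, epi_lat c1 ha p, epi_lat c2 ha p, rfl⟩

/-- `DomL` with sign changes at corners. -/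
def DomC (K : ℝ) : Prop :=
  ∃ κ : ℝ → ℝ, (∀ α > 0, 0 < κ α) ∧
  ∀ J > 0, ∀ V, IsPotential V → ∃ lam₀ > 0, ∃ β Zσ Zε : ℝ → ℝ,
    AnalyticOnNhd ℝ β (Ioo (-lam₀) lam₀) ∧ AnalyticOnNhd ℝ Zσ (Ioo (-lam₀) lam₀) ∧
    AnalyticOnNhd ℝ Zε (Ioo (-lam₀) lam₀) ∧ β 0 = Kc / J ∧ Zσ 0 = 1 ∧ Zε 0 = 1 ∧
    ∀ lam : ℝ, |lam| < lam₀ → 0 < β lam ∧ 0 < Zσ lam ∧ 0 < Zε lam ∧
      (∃ μ, IsPlaneState J lam V (β lam) μ ∧ IsTorusState J lam V (β lam) μ ∧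
        ∀ E₀, PlaneFam J 0 (fun _ => 0) (Kc / J) E₀ →
          LocDiff univ E₀ (famOf μ) (Zσ lam) (Zε lam) ∧
            Identity univ E₀ (famOf μ) (Zσ lam) (Zε lam)) ∧
      ∀ α > 0, ∀ D b, (TameK α (κ α) D ∨ IsLip K D) ∧ SignK α (κ α) D b ∨
        TameK α (κ α) D ∧ SignL (Two (κ α)) D b ∨ IsLip K D ∧ SignL (fun _ => True) D b →
        LocDiff D (crit J D b) (inDom J lam V (β lam) D b) (Zσ lam) (Zε lam) ∧
          Identity D (crit J D b) (inDom J lam V (β lam) D b) (Zσ lam) (Zε lam)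

theorem domC_of (hG : GenA) (hD : DigU) (hC : ClsU) (g1 : RawL) (g2 : TorL) (g3 : RghL)
    (g4 : DeepL) (g5 : BdL) (hE : GenA2) (hT2 : LatK2) (hW : PwM) (hL2 : GeoL2) (hK2 : GeoT2)
    {K : ℝ} (hK1 : K < 1) : DomC K := by
  obtain ⟨κL, hκL, g1⟩ := g1 K hK1
  obtain ⟨NL, hL2⟩ := hL2 κL hκL
  obtain ⟨NT, hK2⟩ := hK2
  obtain ⟨c₂, hc₂, hT2⟩ := hT2 (NL + NT)
  obtain ⟨ε₂, hε₂, hE⟩ := hE
  obtain ⟨ζ₂, hζ₂, LE, hE⟩ := hE ε₂ hε₂ le_rfl c₂ hc₂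
  obtain ⟨LT, hT2⟩ := hT2 ζ₂ hζ₂
  obtain ⟨LL2, hL2⟩ := hL2 ε₂ hε₂
  obtain ⟨LK2, hK2⟩ := hK2 ε₂ hε₂
  obtain ⟨LX, hX⟩ := boxStmt (bdStmt_of shrStmt) gapStmt
  obtain ⟨LB, hB⟩ := ana
  obtain ⟨LS, hS⟩ := stateStmt
  obtain ⟨ε₁, hε₁, hG⟩ := hG
  obtain ⟨c', hc', hN⟩ := latK
  obtain ⟨ζ, hζ, LG, hG⟩ := hG ε₁ hε₁ le_rfl c' hc'
  obtain ⟨LN, hN⟩ := hN ζ hζ
  obtain ⟨LF, hF⟩ := geoF hD hC hε₁
  obtain ⟨LK, hK⟩ := geoK hD hC hε₁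
  obtain ⟨LL, hLL⟩ := geo g2 g3 g4 g5 hκL hε₁
  obtain ⟨L, hL⟩ : ∃ L, LB + LS + LX + LG + LN + LF + LK + LL + LE + LT + LL2 + LK2 + 2 ≤ L := ⟨_, le_rfl⟩
  replace hLL := hLL L (by omega)
  replace hT2 := hT2 L (by omega)
  replace hL2 := hL2 L (by omega)
  obtain ⟨kf₂, hE0, hE⟩ := hE L (by omega)
  choose! κT hκT hK2 using hK2 L (by omega)
  obtain ⟨ηB, hηB, hB⟩ := hB L (by omega)
  obtain ⟨ηS, hηS, hS⟩ := hS L (by omega)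
  obtain ⟨κ₁, hκ₁, hN⟩ := hN L (by omega)
  obtain ⟨ηX, hηX, hX⟩ := hX L (by omega)
  obtain ⟨kf, hG0, hG⟩ := hG L (by omega)
  choose! κF hκF hF using hF L (by omega)
  choose! κK hκK hK using hK L (by omega)
  obtain ⟨κ, hκ⟩ : ∃ κ : ℝ → ℝ, ∀ α > 0, 0 < κ α ∧ κ α ≤ κF α ∧ κ α ≤ κK α ∧ κ α ≤ κ₁ ∧
      κ α ≤ 1 / 10 ∧ κ α ≤ α / 100 ∧ κ α ≤ κT α :=
    ⟨fun α => min (κF α) (min (κK α) (min κ₁ (min (1 / 10) (min (α / 100) (κT α))))),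
      fun α hα => ⟨by
      have := hκT α hα
      have := hκF α hα
      have := hκK α hα
      positivity, by simp only [← le_min_iff, le_refl]⟩⟩
  refine ⟨κ, fun α hα => (hκ α hα).1, fun J hJ V hV => ?_⟩
  obtain ⟨R, hR⟩ := U4.exists_R hV
  have z0 : ∀ ε > 0, |(qc L V R 0).x - P144Z.tc| ≤ ε ∧ |Real.exp (sg L (qc L V R 0)) - 1| ≤ ε ∧
      |ze L (qc L V R 0) - 1| ≤ ε := fun ε hε => by
    obtain ⟨η, hη, h⟩ := hG ε hε
    obtain ⟨δ, hδ, h⟩ := h R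
    obtain ⟨κ₀, k0, h', -⟩ := hB (min ηB (min η ε)) (by positivity) (min_le_left _ _) V R hV hR δ hδ
    have hq := h' 0 (by simpa using k0)
    obtain ⟨-, h1, h2, -⟩ := h _ rfl (hq.mono ((min_le_right _ _).trans (min_le_left _ _)) le_rfl)
    exact ⟨hq.x.trans ((min_le_right _ _).trans (min_le_right _ _)), h1.le, h2.le⟩
  have z1 : ∀ {a b : ℝ}, (∀ ε > 0, |a - b| ≤ ε) → a = b := fun h =>
    sub_eq_zero.1 (abs_nonpos_iff.1 (le_of_forall_pos_le_add fun ε hε => by simpa using h ε hε))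
  obtain ⟨ηM, hηM, hG⟩ := hG (1 / 2) (by positivity)
  obtain ⟨ηE, hηE, hE⟩ := hE (1 / 2) (by positivity)
  obtain ⟨δE, hδE, hE⟩ := hE R
  obtain ⟨δS, hδS, hS1⟩ := hS R
  obtain ⟨δ0, hδ0, hS0⟩ := hS 0
  obtain ⟨δM, hδM, hG⟩ := hG R
  obtain ⟨δX, hδX, hX⟩ := hX R
  obtain ⟨κ₀, hκ₀, hB, a1, a2⟩ := hB (min (min ηB ηS) (min (min ηM ηE) ηX)) (by positivity)
    ((min_le_left _ _).trans (min_le_left _ _)) V _ hV hR (min (min δS 1) (min (min δM δE) δX))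
    (by positivity)
  replace hG := fun k hk => hG _ rfl ((hB k hk).mono
    (((min_le_right _ _).trans (min_le_left _ _)).trans (min_le_left _ _))
    (((min_le_right _ _).trans (min_le_left _ _)).trans (min_le_left _ _)))
  replace hE := fun k hk => hE _ rfl ((hB k hk).mono
    (((min_le_right _ _).trans (min_le_left _ _)).trans (min_le_right _ _))
    (((min_le_right _ _).trans (min_le_left _ _)).trans (min_le_right _ _)))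
  obtain ⟨a2, a3⟩ := a2 fun k hk => (hG k hk).1
  have hk : ∀ lam : ℝ, |lam| < 2 * J * κ₀ → |lam / (2 * J)| < κ₀ := fun lam hlam => by
    rw [abs_div, abs_of_pos (by positivity : 0 < 2 * J), div_lt_iff₀ (by positivity)]
    linarith
  have cp : ∀ {f : ℝ → ℝ}, AnalyticOnNhd ℝ f (Ioo (-κ₀) κ₀) →
      AnalyticOnNhd ℝ (fun lam => f (lam / (2 * J))) (Ioo (-(2 * J * κ₀)) (2 * J * κ₀)) :=
    fun hf => hf.comp (analyticOnNhd_id.div_const (c := 2 * J))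
      fun lam h => abs_lt.1 (hk lam (abs_lt.2 h))
  refine ⟨2 * J * κ₀, by positivity, fun lam => -Real.log (qc L V R (lam / (2 * J))).x / (2 * J),
    fun lam => Real.exp (sg L (qc L V R (lam / (2 * J)))), fun lam => ze L (qc L V R (lam / (2 * J))),
    cp (f := fun k => -Real.log (qc L V R k).x / (2 * J)) ((a1.log fun k h =>
      lt_of_lt_of_le (by norm_num) (hB k (abs_lt.2 h)).ok.x_lo).neg.div_const),
    cp a3.rexp, cp a2, ?_, ?_, ?_, fun lam hlam => ?_⟩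
  · simp only [zero_div]
    rw [z1 fun ε hε => (z0 ε hε).1, U4.tc_eq, Real.log_exp]
    field_simp
  · simpa only [zero_div] using z1 fun ε hε => (z0 ε hε).2.1
  · simpa only [zero_div] using z1 fun ε hε => (z0 ε hε).2.2
  have hq := hB _ (hk lam hlam)
  obtain ⟨-, -, z2, hmain, hU⟩ := hG _ (hk lam hlam)
  obtain ⟨-, -, -, -, hU2⟩ := hE _ (hk lam hlam)
  beta_reduce
  have zp := Real.exp_pos (sg L (qc L V R (lam / (2 * J))))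
  generalize Real.exp (sg L (qc L V R (lam / (2 * J)))) = Zσ at *
  generalize ze L (qc L V R (lam / (2 * J))) = Zε at *
  have hμ : (qc L V R (lam / (2 * J))).μ =
      lam / (2 * J) * -Real.log (qc L V R (lam / (2 * J))).x := rfl
  have hV' : (qc L V R (lam / (2 * J))).V = V := rfl
  have hR' : (qc L V R (lam / (2 * J))).R = R := rfl
  generalize qc L V R (lam / (2 * J)) = q at *
  subst hV' hR'
  have hx0 : 0 < q.x := lt_of_lt_of_le (by norm_num) hq.ok.x_lo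
  have hx1 : q.x < 1 := lt_of_le_of_lt hq.ok.x_hi (by norm_num)
  have hrel : U4.Rel J lam (-Real.log q.x / (2 * J)) q :=
    { pot := hV
      range := hR
      mu := by rw [hμ]; ring
      x := by
        rw [show -(2 * (-Real.log q.x / (2 * J)) * J) = Real.log q.x by field_simp,
          Real.exp_log hx0]
      st := hS1 q rfl (hq.mono ((min_le_left _ _).trans (min_le_right _ _))
        ((min_le_left _ _).trans (min_le_left _ _))) }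
  have hrel0 := U4.rel_zero hJ (hS0 par0 rfl (crit_par0 L ηS δ0 hηS.le hδ0.le))
  have hsm : q.Small 1 := le_trans hq.small ((min_le_left _ _).trans (min_le_right _ _))
  have hbox := hX q rfl
    (hq.mono ((min_le_right _ _).trans (min_le_right _ _))
      ((min_le_right _ _).trans (min_le_right _ _))) J lam _ hrel
  obtain ⟨μ, hμ⟩ := U1.exists_state hV J lam _ hrel.spin
  refine ⟨div_pos (neg_pos.2 (Real.log_neg hx0 hx1)) (by positivity), zp,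
    by linarith [abs_lt.1 z2], ⟨μ, hbox μ hμ, hμ, fun E₀ hE => ?_⟩, fun α hα D b hT => ?_⟩
  · have h := (udiff_plane hJ hrel hrel0 hmain hμ hE).loc isOpen_univ
    exact ⟨h, ident h.diff⟩
  obtain ⟨k0, k1, k2, k3, k4, k5, k6⟩ := hκ α hα
  have ho : IsOpen D := by
    rcases hT with ⟨h | h, -⟩ | ⟨h, -⟩ | ⟨h, -⟩ <;> exact h.1
  suffices h : UDiff D (crit J D b) (inDom J lam q.V (-Real.log q.x / (2 * J)) D b) Zσ Zε from
    ⟨h.loc ho, ident (h.loc ho).diff⟩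
  rcases hT with ⟨hT, hb⟩ | ⟨hT, P, hP, rfl⟩ | ⟨hT, P, hP, rfl⟩
  rotate_left
  · obtain ⟨N, k₀, hK2⟩ := hK2 α hα
    obtain ⟨T, T0, ρ, ρ0, h1⟩ := hT.raw k4 le_rfl
    obtain ⟨ρ', ρ1, n₀, -, hw⟩ := hW _ (TwoZ (κ α)) two_lat D P ho hT.2.1 hP
    refine udiff_lat T0 (lt_min ρ0 ρ1) (fun a ha => ⟨(h1 a ha).1, (h1 a ha).2.1⟩)
      fun n m Λ₀ ε hε => ?_
    obtain ⟨Zσ', Zε', h⟩ := (hE0 m N _ (le_max_left _ k₀)).2
    obtain ⟨r₀, hr⟩ := hT2 _ _ q Zσ Zε Zσ' Zε' m hq.ok hsm (hU2 m N _ (le_max_left _ k₀)).2 h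
      ((hK2 _ (le_max_right _ _) _ k0 k6 n₀).mono (Nat.le_add_left _ _)) J lam _ hJ hrel.mu hrel.x
      n Λ₀ ε hε
    exact ⟨r₀ + n₀, fun r h a ha r1 r2 x y j => hr r (by omega) _ (bcOf P a) x y j
      ⟨(h1 a ha).2.2 r r1 (r2.trans (min_le_left _ _)),
        hw a ha _ (h1 a ha).1 r (by omega) (r2.trans (min_le_right _ _))⟩⟩
  · obtain ⟨T, T0, ρ, ρ0, h1⟩ := g1 D hT
    obtain ⟨ρ', ρ1, n₀, -, hw⟩ := hW _ (fun _ => True) (fun _ _ _ _ _ => trivial) D P ho hT.2.1 hP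
    refine udiff_lat T0 (lt_min ρ0 ρ1) (fun a ha => ⟨(h1 a ha).1, (h1 a ha).2.1⟩)
      fun n m Λ₀ ε hε => ?_
    obtain ⟨Zσ', Zε', h⟩ := (hE0 m 0 _ (le_max_left _ 1)).2
    obtain ⟨r₀, hr⟩ := hT2 _ _ q Zσ Zε Zσ' Zε' m hq.ok hsm (hU2 m 0 _ (le_max_left _ 1)).2 h
      ((hL2 _ (le_max_right _ _) n₀).mono (Nat.le_add_right _ _)) J lam _ hJ hrel.mu hrel.x
      n Λ₀ ε hε
    exact ⟨r₀ + n₀, fun r h a ha r1 r2 x y j => hr r (by omega) _ (bcOf P a) x y j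
      ⟨(h1 a ha).2.2 r r1 (r2.trans (min_le_left _ _)),
        hw a ha _ (h1 a ha).1 r (by omega) (r2.trans (min_le_right _ _))⟩⟩
  rcases hT with hT | hT
  swap
  · obtain ⟨T, T0, ρ, ρ0, h1⟩ := g1 D hT
    rcases hb with rfl | ⟨P, hP, rfl⟩
    · refine udiff_lat T0 ρ0 (fun a ha => ⟨(h1 a ha).1, (h1 a ha).2.1⟩) fun n m Λ₀ ε hε => ?_
      obtain ⟨r₀, hr⟩ := latF (kStmtW_of gapW) holesW spStmt (by omega) hq.ok hsm
        (hU m 0 _ (le_max_left _ 1)).1 (hG0 m 0 _ (le_max_left _ 1)).1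
        (hLL _ (le_max_right _ _)).1 J lam _ hJ hrel.mu hrel.x n Λ₀ ε hε
      exact ⟨r₀, fun r h a ha r1 r2 x y j =>
        hr r h _ none x y j (Or.inl rfl) ((h1 a ha).2.2 r r1 r2)⟩
    · obtain ⟨ρ', ρ1, hw⟩ := hP.bcZ
      refine udiff_lat T0 (lt_min ρ0 ρ1) (fun a ha => ⟨(h1 a ha).1, (h1 a ha).2.1⟩)
        fun n m Λ₀ ε hε => ?_
      obtain ⟨Zσ', Zε', h⟩ := (hG0 m 0 _ (le_max_left _ 1)).2
      obtain ⟨r₀, hr⟩ := hN _ k3 _ _ q Zσ Zε Zσ' Zε' m hq.ok hsm (hU m 0 _ (le_max_left _ 1)).2 h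
        ((hLL _ (le_max_right _ _)).2 _) J lam _ hJ hrel.mu hrel.x α _ k0 le_rfl (by linarith)
        n Λ₀ ε hε
      exact ⟨r₀, fun r h a ha r1 r2 x y j => hr r h _ (bcOf P a) x y j
        ((h1 a ha).2.2 r r1 (r2.trans (min_le_left _ _)))
        (hw a ha _ (h1 a ha).1 r (r2.trans (min_le_right _ _)))⟩
  rcases hb with rfl | ⟨P, hP, rfl⟩
  · obtain ⟨N, k₀, hF⟩ := hF α hα
    obtain ⟨T, T0, ρ, ρ0, h1⟩ := hT.raw k4 k1
    refine udiff_lat T0 ρ0 (fun a ha => ⟨(h1 a ha).1, (h1 a ha).2.1⟩) fun n m Λ₀ ε hε => ?_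
    obtain ⟨r₀, hr⟩ := latF (kStmtW_of gapW) holesW spStmt (by omega) hq.ok hsm
      (hU m N _ (le_max_left _ k₀)).1 (hG0 m N _ (le_max_left _ k₀)).1 (hF _ (le_max_right _ _))
      J lam _ hJ hrel.mu hrel.x n Λ₀ ε hε
    exact ⟨r₀, fun r h a ha r1 r2 x y j => hr r h _ none x y j (Or.inl rfl) ((h1 a ha).2.2 r r1 r2)⟩
  · obtain ⟨N, k₀, hK⟩ := hK α hα
    obtain ⟨T, T0, ρ, ρ0, h1⟩ := hT.raw k4 le_rfl
    obtain ⟨ρ', ρ1, hw⟩ := hP.bcZ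
    refine udiff_lat T0 (lt_min ρ0 ρ1) (fun a ha => ⟨(h1 a ha).1, (h1 a ha).2.1⟩)
      fun n m Λ₀ ε hε => ?_
    obtain ⟨Zσ', Zε', h⟩ := (hG0 m N _ (le_max_left _ k₀)).2
    obtain ⟨r₀, hr⟩ := hN _ k3 _ _ q Zσ Zε Zσ' Zε' m hq.ok hsm (hU m N _ (le_max_left _ k₀)).2 h
      (hK _ (le_max_right _ _) _ k0 k2) J lam _ hJ hrel.mu hrel.x α _ k0 le_rfl (by linarith)
      n Λ₀ ε hε
    exact ⟨r₀, fun r h a ha r1 r2 x y j => hr r h _ (bcOf P a) x y j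
      ((h1 a ha).2.2 r r1 (r2.trans (min_le_left _ _)))
      (hw a ha _ (h1 a ha).1 r (r2.trans (min_le_right _ _)))⟩

theorem domC' (hT2 : LatK2) (hW : PwM) (hL2 : GeoL2) (hK2 : GeoT2) {K : ℝ} (hK : K < 1) :
    DomC K :=
  domC_of (genA_of_wt wtS) (digU_of (chStmt_of shiftU) (smallW_of (smallU_of farU))
    (uniW_of farU connOr winAnd rghZ) rghZ) clsU G.rawL G.torL G.rghL G.deepL bdL genA2 hT2 hW hL2
    hK2 hK

end Vale.Agent.P144C
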