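import Vale.Agent.P144C.T.Dig
import Vale.Agent.P144D.I.U.All

/-!
Sign changes at corners: the sets with tips can be dug and marked.
-/

namespace Vale.Agent.P144C

open Finset Vale.Agent.P144Z P144 UL

theorem geoT2_of (hD : DigU) (hC : ClsU) (hM : MarkM) : GeoT2 := by
  refine ⟨50, fun ε hε => ?_⟩
  obtain ⟨N, hD⟩ := hD
  obtain ⟨K, hK, hC⟩ := hC N
  obtain ⟨K', hD⟩ := hD K hK
  obtain ⟨Q, hQ, hC⟩ := hC K'
  obtain ⟨L₀, hC⟩ := hC ε hε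
  refine ⟨L₀ + 2, fun L hL α hα => ?_⟩
  obtain ⟨κ₁, hκ₁, hC⟩ := hC L (by omega)
  obtain ⟨κ₀, hκ₀, K₀, r₁, hD⟩ := hD α hα
  obtain ⟨N', hC⟩ := hC K₀
  refine ⟨min (min κ₀ κ₁) (min (α ^ 2 / 128) (min α 1 / 100)), by positivity, N', r₁ + 1,
    fun k hk κ hκ hκ' n => ?_⟩
  simp only [le_min_iff (c := κ)] at hκ'
  obtain ⟨⟨k0, k1⟩, k2, k3⟩ := hκ'
  have k4 : κ ≤ 1 / 100 := by linarith [min_le_right α 1]
  have s1 := sc_ge (L := L) (J := k) (by omega)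
  have s2 : sc L k ≤ Q * sc L k := Nat.le_mul_of_pos_left _ hQ
  obtain ⟨t, N₁, Qd, ht, hQd, hD⟩ := hD (Q * sc L k) (by omega)
  obtain ⟨Kt, hT⟩ := noTip hα
  obtain ⟨Cd, hCd⟩ := deepU hα t N₁
  obtain ⟨E, hE⟩ : ∃ E, E = 4 * (n + 1) := ⟨_, rfl⟩
  obtain ⟨D, hD'⟩ : ∃ D, D = Qd + Q + Q * sc L k + 4 * N₁ + 2 * t + 8 + E * (4 * t + 10) +
    n * Kt + 2 * Kt := ⟨_, rfl⟩
  refine ⟨t, N₁, D, Cd, 0, ht, by omega, fun R₀ => ?_⟩
  obtain ⟨Km, hM⟩ := hM n R₀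
  refine ⟨Km, fun Λ₀ => ⟨(Λ₀ + 1 + 1) ^ 2, fun Λ b r T ⟨⟨P, hP⟩, F, hb⟩ h0 h2 hΛ hΛ₀ => ?_⟩⟩
  have h1 : D ≤ r := (Nat.le_mul_of_pos_right _ Km.succ_pos).trans h0
  have h3 : 8 * (Km + 1) ≤ r := (Nat.mul_le_mul_right _ (by omega)).trans h0
  obtain ⟨c, c1, c2, c3⟩ := hD κ hκ k0 Λ P r T hP (by omega) hΛ
  have d1 : r / D ≤ r / Qd := Nat.div_le_div_left (by omega) hQd
  have d2 : r / D ≤ r / 2 := Nat.div_le_div_left (by omega) two_pos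
  have d3 : r / D ≤ r / E / 2 := by
    rw [Nat.div_div_eq_div_mul]
    have : E * 2 ≤ E * (4 * t + 10) := Nat.mul_le_mul_left _ (by omega)
    exact Nat.div_le_div_left (by omega) (by omega)
  have d4 : 4 * t + 10 ≤ r / E := (Nat.le_div_iff_mul_le (by omega)).2 (by rw [mul_comm]; omega)
  have d5 : E * (r / E) ≤ r := Nat.mul_div_le r E
  have d6 : 4 * (r / E) ≤ r := (Nat.mul_le_mul_right _ (by omega)).trans d5
  have d7 : n * (r / E) ≤ r := (Nat.mul_le_mul_right _ (by omega)).trans d5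
  have fa : ∀ p ∈ P, ∀ f ∈ F, r < 2 * zd p f := fun p hp f hf => by
    by_contra hn
    obtain ⟨un, T₁, T₂, ν₁, ν₂, a1, a2⟩ := hP.tip p hp
    obtain ⟨S, ν, τ, b1, -, b2, b3, -, -, b4, -⟩ := hb.chart f hf
    refine (hT κ hκ.le k2 k4 _ _ _ _ _ a1).2 S ν (p - f) b1 b2 b3 fun v hv => ?_
    have b5 := GeoA.zd_tri (p - f + v) (p - f) 0
    rw [IConv.zd_add_left, IConv.zd_sub_zero] at b5
    rw [← a2 v (by omega), ← b4 _ (by omega), ← add_assoc, add_sub_cancel]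
  have cs : ∀ p ∈ P, ∃ β, ∀ v, zd v p ≤ r / E → v ∉ Λ → b v = β := fun p hp => by
    obtain ⟨un, T₁, T₂, ν₁, ν₂, a1, a2⟩ := hP.tip p hp
    obtain ⟨a, a3, a4⟩ := (hT κ hκ.le k2 k4 _ _ _ _ _ a1).1
    have a5 : n * zd a 0 ≤ n * Kt := Nat.mul_le_mul_left _ a4
    obtain ⟨β, h⟩ := hb.far p (fa p hp) ⟨p + a, (a2 a (by omega)).2 a3, by
      rw [IConv.zd_add_left]; omega⟩
    exact ⟨β, fun v hv => h v ((Nat.mul_le_mul_left _ hv).trans d7)⟩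
  choose! s hs using cs
  obtain ⟨x, e, ν, b', mg, mb, hx⟩ := hM _ Λ b F 50 r hb (by omega) fun f hf => by
    obtain ⟨S, ν, τ, -, -, -, b3, -, -, b4, -⟩ := hb.chart f hf
    exact trZ_two (by linarith) b3 b4
  obtain ⟨b₁, b₂, e1, e2, e3, e4, e5⟩ := digM (ρ := r / E) hP.sep c1 hs (fun p hp i => by
    obtain ⟨f, hf, a1⟩ := hx i
    have := fa p hp f hf
    have := GeoA.zd_tri p (x i) f
    rw [GeoA.zd_comm p (x i)] at this
    omega) (mg.mono d2) mb (by omega) (by omega)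
  have cF : F.card ≤ (Λ₀ + 1 + 1) ^ 2 := B5a2.card_net (T := Λ₀ * r + 4) (fun f hf => by
    obtain ⟨S, ν, τ, -, -, -, -, ⟨g, b3, b5⟩, -, b4, -⟩ := hb.chart f hf
    have b6 := hΛ₀ _ ((b4 g (by omega)).2 b3)
    have b7 := GeoA.zd_tri f (f + g) 0
    rw [GeoA.zd_comm f (f + g), IConv.zd_add_left] at b7
    omega) hb.sep (by
      rw [show (Λ₀ + 1) * (2 * r + 1) = 2 * (Λ₀ * r) + Λ₀ + 2 * r + 1 by ring]
      omega)
  have p1 : ∀ p ∈ P.image c, zd p 0 ≤ T + t ∧ ∃ v, v ∉ Λ ∧ zd v p ≤ t := fun p' hp' => by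
    obtain ⟨p, hp, rfl⟩ := mem_image.1 hp'
    obtain ⟨a1, v, a2, a3⟩ := c2 p hp
    have a4 := c1 p
    have a5 := GeoA.zd_tri (c p) p 0
    have a6 := GeoA.zd_tri v p (c p)
    rw [GeoA.zd_comm p] at a6
    exact ⟨by omega, v, a2, by omega⟩
  have p2 : ∀ (M : ℕ) [NeZero M], 4 * (T + r) ≤ M →
      Rgh ((dig Λ (P.image c) t).image (prj M)) N₁ (r / D) := fun M _ hM =>
    (c3 M hM).elim fun _ hT => hT.rgh.mono d1
  refine ⟨P.image c, b₁, b₂, _, x, e, ν, cF, p1, fun p₁ h₁ p₂ h₂ e => ?_, e1, e2, e3, e4, e5,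
    hCd κ hκ (by linarith) Λ P _ r _ T hP hΛ (fun p hp => (p1 p hp).2) p2 (by omega),
    fun M _ hM => ⟨p2 M hM, fun B ρ J b1 b2 _ b4 => ?_⟩⟩
  · obtain ⟨p, hp, rfl⟩ := mem_image.1 h₁
    obtain ⟨p', hp', rfl⟩ := mem_image.1 h₂
    have a1 := hP.sep p hp p' hp' fun k => e (k ▸ rfl)
    have a2 := c1 p
    have a3 := c1 p'
    have a4 := GeoA.zd_tri p (c p) p'
    have a5 := GeoA.zd_tri (c p) (c p') p'
    rw [GeoA.zd_comm p (c p)] at a4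
    omega
  · obtain ⟨Tc, hT⟩ := c3 M hM
    have s3 := sc_ge (L := L) (J := J) (by omega)
    have s4 : Q * sc L J ≤ D * sc L J := Nat.mul_le_mul_right _ (by omega)
    have s5 : D ≤ D * sc L J := Nat.le_mul_of_pos_right _ (by omega)
    exact hC k (by omega) N₁ M ⟨_, false⟩ _ Tc B ρ J (hT.mono k1 (by omega)) b1
      (by omega) (by omega) (by omega)

theorem geoT2 (hM : MarkM) : GeoT2 :=
  geoT2_of (digU_of (chStmt_of shiftU) (smallW_of (smallU_of farU))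
    (uniW_of farU connOr winAnd rghZ) rghZ) clsU hM

end Vale.Agent.P144C
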