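import Vale.Agent.P144C.MkAbs
import Vale.Agent.P144U.Dec.Dec

/-!
The sizes of a marked half-edge.
-/

namespace Vale.Agent.P144C

open Finset Matrix Vale.Agent.P144Z

theorem mkStmt2 (hH : HomM) : MkStmt2 := by
  intro N
  obtain ⟨Q, s₀, C, Kf, h8, hC, hH⟩ := hH N
  obtain ⟨c₁, hc₁, hS⟩ := UD.solv N
  obtain ⟨c, hc, hA⟩ := mkAbs C c₁ s₀ Kf hC hc₁ h8
  refine ⟨c, hc, 3 * Q + 7, fun η hη => ?_⟩
  obtain ⟨L₀, hA⟩ := hA η hη
  refine ⟨L₀ + s₀, fun L hL M _ I r J z a ν hm hM hJ hr => ?_⟩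
  have s1 : sc L 1 = 8 * L := by simp [sc]
  have s2 : sc L 1 ≤ sc L J := FM.sc_mono (by omega) hJ
  have e1 : (3 * Q + 7) * sc L J = Q * (3 * sc L J) + 7 * sc L J := by ring
  obtain ⟨φ₀, hR⟩ := hH M I r z a ν (3 * sc L J) hm hM (by omega) (by omega)
  have sg : IsSign (1 : Gauge M) := fun _ => Or.inl rfl
  have h1 := hS M ⟨I, false⟩ 1 r z sg hm.tr (by omega) (3 * sc L J) (by omega)
    (fun f _ => by simp [flux])
  have h2 := B5c.isW (⟨I, false⟩ : Reg M) sg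
  rw [mul_one] at h1 h2
  exact hA L (by omega) M _ (z, a) φ₀ J h2 hJ hR h1

end Vale.Agent.P144C
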