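import Vale.Agent.P144C.Defs
import Vale.Agent.P144D.I.Cg.Path

/-!
Two connected marks are joined by a corridor.
-/

namespace Vale.Agent.P144C

open Finset Vale.Agent.P144Z Vale.Agent.P144L GeoA B5a2 ICg

namespace Pa

theorem sq_key {c s x y : ℝ} (h : c ^ 2 + s ^ 2 = 1) (h1 : 0 ≤ s) (h2 : s ≤ c) (h3 : 0 ≤ y)
    (h4 : y ≤ x) : √2 / 2 * √(x ^ 2 + y ^ 2) ≤ x * c + y * s := by
  have e : √2 / 2 * √(x ^ 2 + y ^ 2) = √((x ^ 2 + y ^ 2) / 2) := by
    rw [Real.sqrt_div (by positivity), eq_div_iff (by positivity)]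
    have := Real.mul_self_sqrt (show (0 : ℝ) ≤ 2 by norm_num)
    linear_combination √(x ^ 2 + y ^ 2) / 2 * this
  rw [e]
  have hx : 0 ≤ x := h3.trans h4
  have hc : 0 ≤ c := h1.trans h2
  refine Real.sqrt_le_iff.2 ⟨by positivity, ?_⟩
  have a1 : 0 ≤ (x ^ 2 - y ^ 2) * (c ^ 2 - s ^ 2) :=
    mul_nonneg (by nlinarith) (by nlinarith)
  have a2 : 0 ≤ x * y * (c * s) := by positivity
  have a3 : (x ^ 2 + y ^ 2) / 2 = (x ^ 2 + y ^ 2) / 2 * (c ^ 2 + s ^ 2) := by rw [h, mul_one]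
  nlinarith

/-- Two lattice directions that span a part of the cone. -/
theorem exists_dir {ν : ℂ} (hν : ‖ν‖ = 1) : ∃ e e' : Fin 4, ∀ (d : ℤ × ℤ) (i j s : ℕ),
    zd d (i • st4 e + j • st4 e') ≤ s → s ≤ j → j + 2 * s ≤ i → P144L.Cn ν d := by
  have h1 := sq_add hν
  have key : ∀ (c s : ℝ) (x y : ℤ), c ^ 2 + s ^ 2 = 1 → 0 ≤ s → s ≤ c → 0 ≤ y → y ≤ x →
      √2 / 2 * √((x : ℝ) ^ 2 + (y : ℝ) ^ 2) ≤ x * c + y * s := fun c s x y a b c' d e =>
    sq_key a b c' (by exact_mod_cast d) (by exact_mod_cast e)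
  unfold P144L.Cn len ht
  rcases le_total 0 ν.re with a | a <;> rcases le_total 0 ν.im with b | b
  · rcases le_total ν.im ν.re with c | c
    · refine ⟨0, 1, fun d i j s k k1 k2 => ?_⟩
      simp [zd, st4] at k
      exact key _ _ d.1 d.2 h1 b c (by omega) (by omega)
    · refine ⟨1, 0, fun d i j s k k1 k2 => ?_⟩
      simp [zd, st4] at k
      have := key _ _ d.2 d.1 (by linarith) a c (by omega) (by omega)
      rw [add_comm ((d.2 : ℝ) ^ 2)] at this
      linarith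
  · rcases le_total (-ν.im) ν.re with c | c
    · refine ⟨0, 3, fun d i j s k k1 k2 => ?_⟩
      simp [zd, st4] at k
      have := key ν.re (-ν.im) d.1 (-d.2) (by linarith) (by linarith) c (by omega) (by omega)
      simpa using this
    · refine ⟨3, 0, fun d i j s k k1 k2 => ?_⟩
      simp [zd, st4] at k
      have := key (-ν.im) ν.re (-d.2) d.1 (by linarith) a c (by omega) (by omega)
      simp only [Int.cast_neg, even_two, Even.neg_pow, mul_neg, neg_mul, neg_neg] at this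
      rw [add_comm ((d.2 : ℝ) ^ 2)] at this
      linarith
  · rcases le_total ν.im (-ν.re) with c | c
    · refine ⟨2, 1, fun d i j s k k1 k2 => ?_⟩
      simp [zd, st4] at k
      have := key (-ν.re) ν.im (-d.1) d.2 (by linarith) b c (by omega) (by omega)
      simpa using this
    · refine ⟨1, 2, fun d i j s k k1 k2 => ?_⟩
      simp [zd, st4] at k
      have := key ν.im (-ν.re) d.2 (-d.1) (by linarith) (by linarith) c (by omega) (by omega)
      simp only [Int.cast_neg, even_two, Even.neg_pow, mul_neg, neg_mul, neg_neg] at this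
      rw [add_comm ((d.2 : ℝ) ^ 2)] at this
      linarith
  · rcases le_total (-ν.im) (-ν.re) with c | c
    · refine ⟨2, 3, fun d i j s k k1 k2 => ?_⟩
      simp [zd, st4] at k
      have := key (-ν.re) (-ν.im) (-d.1) (-d.2) (by linarith) (by linarith) c (by omega) (by omega)
      simpa using this
    · refine ⟨3, 2, fun d i j s k k1 k2 => ?_⟩
      simp [zd, st4] at k
      have := key (-ν.im) (-ν.re) (-d.2) (-d.1) (by linarith) (by linarith) c (by omega) (by omega)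
      simp only [Int.cast_neg, even_two, Even.neg_pow, mul_neg, neg_mul, neg_neg] at this
      rw [add_comm ((d.2 : ℝ) ^ 2)] at this
      linarith

/-- The sharp form of `cn_rd`. -/
theorem cn_rd2 {ν : ℂ} (hν : ‖ν‖ = 1) {t D : ℕ} (ht' : 2 * (D + 1) ≤ t) {d : ℤ × ℤ}
    (hd : zd d 0 ≤ D) : P144L.Cn ν (G.rd ν t + d) := by
  have h := B1b.abs_le_zd d
  have a1 := abs_le.1 h.1
  have a2 := abs_le.1 h.2
  have b1 := Int.floor_le (t * ν.re)
  have b2 := Int.lt_floor_add_one (t * ν.re)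
  have b3 := Int.floor_le (t * ν.im)
  have b4 := Int.lt_floor_add_one (t * ν.im)
  have h3 : (zd d 0 : ℝ) ≤ D := by exact_mod_cast hd
  have h4 : 2 * ((D : ℝ) + 1) ≤ t := by exact_mod_cast ht'
  have s := sq_add hν
  unfold P144L.Cn len ht
  simp only [G.rd, Prod.fst_add, Prod.snd_add, Int.cast_add]
  obtain ⟨x, hx⟩ : ∃ x : ℝ, x = ⌊t * ν.re⌋ + d.1 - t * ν.re := ⟨_, rfl⟩
  obtain ⟨y, hy⟩ : ∃ y : ℝ, y = ⌊t * ν.im⌋ + d.2 - t * ν.im := ⟨_, rfl⟩
  rw [show (⌊t * ν.re⌋ + d.1 : ℝ) = x + t * ν.re by linarith,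
    show (⌊t * ν.im⌋ + d.2 : ℝ) = y + t * ν.im by linarith]
  have c1 : x ^ 2 ≤ (D + 1) ^ 2 := sq_le_sq' (by linarith) (by linarith)
  have c2 : y ^ 2 ≤ (D + 1) ^ 2 := sq_le_sq' (by linarith) (by linarith)
  obtain ⟨A, hA⟩ : ∃ A : ℝ, A = x * ν.re + y * ν.im := ⟨_, rfl⟩
  obtain ⟨B, hB⟩ : ∃ B : ℝ, B = x * ν.im - y * ν.re := ⟨_, rfl⟩
  have q1 : A ^ 2 + B ^ 2 = x ^ 2 + y ^ 2 := by
    rw [hA, hB]
    linear_combination (x ^ 2 + y ^ 2) * s
  have q2 : (x + t * ν.re) ^ 2 + (y + t * ν.im) ^ 2 = (t + A) ^ 2 + |B| ^ 2 := by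
    rw [sq_abs, hA, hB]
    linear_combination ((t : ℝ) ^ 2 - x ^ 2 - y ^ 2) * s
  have q3 : (x + t * ν.re) * ν.re + (y + t * ν.im) * ν.im = (t + A) * 1 + |B| * 0 := by
    rw [hA]
    linear_combination (t : ℝ) * s
  have q4 : |B| - A ≤ 2 * (D + 1) := by
    refine abs_le_of_sq_le_sq' ?_ (by positivity) |>.2
    nlinarith [sq_abs B, sq_nonneg (|B| + A)]
  rw [q2, q3]
  exact sq_key (by norm_num) le_rfl zero_le_one (abs_nonneg _) (by linarith)

variable {Λ : Finset (ℤ × ℤ)} {N r : ℕ} {x : ℤ × ℤ} {e e' : Fin 4} {ν : ℂ}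

/-- The region near `x` is monotone along the cone spanned by two directions. -/
def Up (Λ : Finset (ℤ × ℤ)) (r : ℕ) (x : ℤ × ℤ) (e e' : Fin 4) : Prop :=
  ∀ (u v : ℤ × ℤ) (i j s : ℕ), u ∈ Λ → zd u x ≤ r → zd v x ≤ r →
    zd v (u + (i • st4 e + j • st4 e')) ≤ s → s ≤ j → j + 2 * s ≤ i → v ∈ Λ

theorem mk_cn {a : Fin 4} (h : MkZ2 Λ N r x a ν) {u v : ℤ × ℤ} (hu : u ∈ Λ) (h1 : zd u x ≤ r)
    (h2 : zd v x ≤ r) (hc : P144L.Cn ν (v - u)) : v ∈ Λ := by
  obtain ⟨S, a2, a4⟩ := h.cone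
  have k : ∀ y, zd y x ≤ r → (y ∈ Λ ↔ y - x ∈ S) := fun y hy => by
    simpa using a4 (y - x) (by rwa [← ICg.zd_sub y x x, sub_self] at hy)
  have := a2 _ ((k u h1).1 hu) (v - u) hc
  exact (k v h2).2 (by simpa using this)

theorem mk_up {a : Fin 4} (h : MkZ2 Λ N r x a ν) : ∃ e e', Up Λ r x e e' := by
  obtain ⟨e, e', k⟩ := exists_dir h.nrm
  exact ⟨e, e', fun u v i j s hu h1 h2 hd k1 k2 => mk_cn h hu h1 h2
    (k _ i j s (by rwa [← ICg.zd_sub _ _ u, add_sub_cancel_left] at hd) k1 k2)⟩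

theorem mk_deep0 {a : Fin 4} (h : MkZ2 Λ N r x a ν) {q : ℕ} (hq : 1 ≤ q) (hr : 10 * q ≤ r) :
    Deep Λ (2 * q) (x + G.rd ν (8 * q)) := by
  intro v hv
  obtain ⟨u, h1, h2⟩ := touch_near h.touch
  have a1 := G.zd_rd h.nrm (8 * q)
  have a2 := zd_tri v (x + G.rd ν (8 * q)) x
  rw [G.zd_add_left] at a2
  refine mk_cn h h1 (by omega) (by omega) ?_
  rw [show v - u = G.rd ν (8 * q) + (v - (x + G.rd ν (8 * q)) + (x - u)) by abel]
  refine cn_rd2 h.nrm (D := 2 * q + 1) (by omega) ?_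
  have := B1b.zd_add (v - (x + G.rd ν (8 * q))) (x - u)
  rw [← G.zd_sub, ← G.zd_sub, zd_comm x u] at this
  omega

theorem zd_two (u : ℤ × ℤ) (e e' : Fin 4) (i j : ℕ) :
    zd (u + (i • st4 e + j • st4 e')) u ≤ i + j := by
  have a := zd_line u e i
  have b := zd_line (u + i • st4 e) e' j
  have := zd_tri (u + i • st4 e + j • st4 e') (u + i • st4 e) u
  rw [← add_assoc]
  omega

theorem Up.deep (h : Up Λ r x e e') {p : ℤ × ℤ} {d i j s R : ℕ} (hp : Deep Λ d p)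
    (hx : zd p x ≤ R) (k1 : s ≤ j) (k2 : j + 2 * s ≤ i) (hr : R + i + j + d + s ≤ r)
    (hds : d = 0 ∨ s = 0) : Deep Λ (d + s) (p + (i • st4 e + j • st4 e')) := by
  intro v hv
  have a1 := zd_two p e e' i j
  have a2 := zd_tri v (p + (i • st4 e + j • st4 e')) p
  have a3 := zd_tri v p x
  rcases hds with rfl | rfl
  · exact h p v i j s (hp p (by simp [zd])) (by omega) (by omega) (by omega) k1 k2
  · have b1 : zd (v - (i • st4 e + j • st4 e')) p ≤ d := by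
      rwa [← ICg.zd_sub _ _ (i • st4 e + j • st4 e'), add_sub_cancel_right] at hv
    have b2 := zd_tri (v - (i • st4 e + j • st4 e')) p x
    exact h _ v i j 0 (hp _ b1) (by omega) (by omega) (by simp [zd]) k1 k2

/-- Outer faces near a mark escape. -/
theorem Up.out (h : Up Λ r x e e') {v : ℤ × ℤ} (hv : v ∉ Λ) {R d : ℕ} (h1 : zd v x ≤ R)
    (hr : R + 7 * d ≤ r) : ∃ y, (∀ u ∈ Λ, d < zd y u) ∧ Rch (· ∉ Λ) v y := by
  have key : ∀ (i j s : ℕ) u, zd u (v + (i • st4 (e + 2) + j • st4 (e' + 2))) ≤ s → s ≤ j →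
      j + 2 * s ≤ i → R + i + j + s ≤ r → u ∉ Λ := by
    intro i j s u k0 k1 k2 k3 hu
    have := zd_two v (e + 2) (e' + 2) i j
    have := zd_tri u (v + (i • st4 (e + 2) + j • st4 (e' + 2))) v
    have := zd_tri u v x
    refine hv (h u v i j s hu (by omega) (by omega) ?_ k1 k2)
    simp only [st4_add_two, zd, smul_neg, Prod.fst_add, Prod.snd_add, Prod.fst_neg,
      Prod.snd_neg] at k0 ⊢
    omega
  refine ⟨v + (4 * d) • st4 (e + 2) + (2 * d) • st4 (e' + 2), fun u hu => ?_,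
    (rch_ray v _ _ fun t ht => key t 0 0 _ (by simp [zd]) le_rfl (by omega) (by omega)).trans
      (rch_ray _ _ _ fun t ht => key (4 * d) t 0 _ (by rw [add_assoc]; simp [zd]) (by omega)
        (by omega) (by omega))⟩
  by_contra k
  exact key (4 * d) (2 * d) d u (by rw [zd_comm, ← add_assoc]; omega) (by omega) (by omega)
    (by omega) hu

theorem cov_tr (h : TrZ Λ x r N) : ICg.Cov (fun v => zd v x ≤ r ∧ Lay Λ v) N := by
  obtain ⟨Hs, Vs, h1, h2, h3⟩ := h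
  refine ⟨fun t => (Hs.filter fun v => v.2 = t).image Prod.fst,
    fun t => (Vs.filter fun v => v.1 = t).image Prod.snd,
    fun t => ⟨card_image_le.trans (h2 t), card_image_le.trans (h3 t)⟩, fun v ⟨k1, k2, k3⟩ => ?_⟩
  exact (h1 v k1 k2 k3).imp (fun k => mem_image_of_mem _ (mem_filter.2 ⟨k, rfl⟩))
    fun k => mem_image_of_mem _ (mem_filter.2 ⟨k, rfl⟩)

variable {m w q : ℕ} {o k : ℤ × ℤ} {Nr : ℤ × ℤ → Prop} {ref : ℤ × ℤ → ℤ × ℤ}

/-- The coarse walk along a segment of deep points. -/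
theorem walk_seg (h0 : 0 < w) (hw : w < m) (hr : RefOK q m w o ref) {z : ℤ × ℤ} {n₀ : ℕ}
    (hx : ∀ i ≤ n₀, zd (Bs m o (k + i • st4 e)) x ≤ 37 * m)
    (hN : ∀ v, zd v x ≤ 39 * m → (∃ u ∈ Λ, zd v u ≤ 3 * m) → Nr v)
    (href : ∀ i ≤ n₀, ref (k + i • st4 e) = z + (i * m) • st4 e)
    (dp : ∀ t ≤ n₀ * m, Deep Λ (2 * q) (z + t • st4 e)) (n : ℕ) (hn : n ≤ n₀) :
    Relation.ReflTransGen (fun u v => ∃ a, v = u + st4 a ∧ Ed Λ q m w o Nr ref u a) k
      (k + n • st4 e) := by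
  induction n with
  | zero => simpa using Relation.ReflTransGen.refl
  | succ n ih =>
    have e1 := href n (by omega)
    have e2 := href (n + 1) hn
    rw [succ_nsmul, ← add_assoc] at e2 ⊢
    have hn' : (n + 1) * m ≤ n₀ * m := Nat.mul_le_mul_right _ hn
    rw [add_mul, one_mul] at hn'
    refine (ih (by omega)).tail ⟨e, rfl, ed_of h0 hw hr (fun v hv => hN v ?_ ?_) ?_⟩
    · have := hx n (by omega)
      have := zd_tri v (Bs m o (k + n • st4 e)) x
      omega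
    · refine ⟨z + (n * m) • st4 e, dp (n * m) (by omega) _ (by simp [zd]), ?_⟩
      have := hr (k + n • st4 e)
      rw [← e1]
      simp only [zd] at hv ⊢
      omega
    · intro y a1 a2 a3 a4 y' hy _
      rw [e1, e2, add_mul, one_mul] at a1 a2 a3 a4
      obtain ⟨t, t2, rfl⟩ : ∃ t : ℕ, t ≤ n * m + m ∧ y = z + t • st4 e := by
        generalize n * m = s at *
        obtain ⟨t, ht⟩ : ∃ t, t = zd y z := ⟨_, rfl⟩
        refine ⟨t, ?_⟩
        simp only [zd] at ht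
        fin_cases e <;> simp [st4, Prod.ext_iff] at a1 a2 a3 a4 ⊢ <;> omega
      exact dp t (by omega) y' hy

theorem Bs_two (m : ℕ) (o k : ℤ × ℤ) (e e' : Fin 4) (i j : ℕ) :
    Bs m o (k + i • st4 e + j • st4 e') = Bs m o k + ((i * m) • st4 e + (j * m) • st4 e') := by
  rw [Bs_add, Bs_add, add_assoc]

theorem near_two (e e' : Fin 4) {i j : ℕ} (hi : i ≤ 24) (hj : j ≤ 12) (c : zd (Bs m o k) x ≤ m) :
    zd (Bs m o (k + i • st4 e + j • st4 e')) x ≤ 37 * m := by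
  have := zd_two (Bs m o k) e e' (i * m) (j * m)
  rw [← Bs_two] at this
  have := zd_tri (Bs m o (k + i • st4 e + j • st4 e')) (Bs m o k) x
  have := Nat.mul_le_mul_right m hi
  have := Nat.mul_le_mul_right m hj
  omega

/-- The coarse walk from a mark to a deep point. -/
theorem walk_stem2 (h0 : 0 < w) (hw : w < m) (hr : RefOK q m w o ref) (h : Up Λ r x e e')
    {p : ℤ × ℤ} (hp : Deep Λ (2 * q) p) (hpx : zd p x ≤ 8 * q) (hm : 10 * q ≤ m)
    (hr' : 37 * m ≤ r) (hx : zd (Bs m o k) x ≤ m)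
    (hN : ∀ v, zd v x ≤ 39 * m → (∃ u ∈ Λ, zd v u ≤ 3 * m) → Nr v)
    (href : ∀ i ≤ 24, ∀ j ≤ 12, ref (k + i • st4 e + j • st4 e') =
      p + ((i * m) • st4 e + (j * m) • st4 e')) :
    Relation.ReflTransGen (fun u v => ∃ a, v = u + st4 a ∧ Ed Λ q m w o Nr ref u a) k
      (k + 24 • st4 e + 12 • st4 e') := by
  refine (walk_seg (z := p) (n₀ := 24) (x := x) h0 hw hr (fun i hi => ?_) hN (fun i hi => ?_)
    (fun t ht => ?_) 24 le_rfl).trans (walk_seg (z := p + (24 * m) • st4 e) (n₀ := 12) (x := x)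
      h0 hw hr (fun j hj => near_two e e' le_rfl hj hx) hN (fun j hj => ?_) (fun t ht => ?_) 12
      le_rfl)
  · simpa using near_two (o := o) (k := k) e e' hi (Nat.zero_le 12) hx
  · simpa using href i hi 0 (Nat.zero_le _)
  · simpa using h.deep (i := t) (j := 0) (s := 0) hp hpx le_rfl (by omega) (by omega) (Or.inr rfl)
  · rw [href 24 le_rfl j hj, add_assoc]
  · rw [add_assoc]
    simpa using h.deep (i := 24 * m) (j := t) (s := 0) hp hpx (by omega) (by omega) (by omega)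
      (Or.inr rfl)

end Pa

open Pa in
theorem pathM : PathM := by
  classical
  intro N₀ C
  refine ⟨108 * (C * (12 * C + 81) + 80) + C + 8, fun Λ₀ => ⟨16 * Λ₀ + 48 + (N₀ + N₀) +
    (8 * Λ₀ + 8) ^ 2, fun Λ T r q a b ea' eb' νa νb hD hΛ hT hq hr hrT ha hb hab hc M _ hM => ?_⟩⟩
  obtain ⟨m, hm⟩ : ∃ m, m = 108 * q := ⟨_, rfl⟩
  obtain ⟨w, hw⟩ : ∃ w, w = 106 * q := ⟨_, rfl⟩
  have r1 : C * (12 * C + 81) * m + 80 * m ≤ r := by
    refine le_trans ?_ hr
    rw [hm]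
    nlinarith [Nat.zero_le (C * q), Nat.zero_le q]
  have h0 : 0 < w := by omega
  have h1 : w < m := by omega
  obtain ⟨ea, fa, ua⟩ := mk_up ha
  obtain ⟨eb, fb, ub⟩ := mk_up hb
  have da := mk_deep0 ha (q := q) (by omega) (by omega)
  have db := mk_deep0 hb (q := q) (by omega) (by omega)
  have za : zd (a + G.rd νa (8 * q)) a ≤ 8 * q := by
    rw [G.zd_add_left]
    exact G.zd_rd ha.nrm _
  have zb : zd (b + G.rd νb (8 * q)) b ≤ 8 * q := by
    rw [G.zd_add_left]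
    exact G.zd_rd hb.nrm _
  rw [← G.prj_add, ← G.prj_add]
  generalize a + G.rd νa (8 * q) = pa at *
  generalize b + G.rd νb (8 * q) = pb at *
  obtain ⟨o₁, i₁, j₁, x1, x2⟩ := exists_off (q := q) (by omega) hm a.1 b.1
  obtain ⟨o₂, i₂, j₂, y1, y2⟩ := exists_off (q := q) (by omega) hm a.2 b.2
  obtain ⟨o, ka, kb, A, B⟩ : ∃ o ka kb : ℤ × ℤ,
      ((Bs m o ka).1 + 17 * q ≤ a.1 ∧ a.1 < (Bs m o ka).1 + 89 * q ∧
        (Bs m o ka).2 + 17 * q ≤ a.2 ∧ a.2 < (Bs m o ka).2 + 89 * q) ∧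
      (Bs m o kb).1 + 17 * q ≤ b.1 ∧ b.1 < (Bs m o kb).1 + 89 * q ∧
        (Bs m o kb).2 + 17 * q ≤ b.2 ∧ b.2 < (Bs m o kb).2 + 89 * q :=
    ⟨(o₁, o₂), (i₁, i₂), (j₁, j₂), ⟨x1.1, x1.2, y1⟩, x2.1, x2.2, y2⟩
  clear x1 x2 y1 y2
  have A' : zd (Bs m o ka) a ≤ m := by simp only [zd]; omega
  have B' : zd (Bs m o kb) b ≤ m := by simp only [zd]; omega
  obtain ⟨ref, hra, hrb⟩ : ∃ ref : ℤ × ℤ → ℤ × ℤ,
      (∀ k, zd (Bs m o k) a ≤ 37 * m → ref k = Bs m o k + (pa - Bs m o ka)) ∧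
      ∀ k, ¬ zd (Bs m o k) a ≤ 37 * m → ref k = Bs m o k + (pb - Bs m o kb) :=
    ⟨fun k => if zd (Bs m o k) a ≤ 37 * m then _ else _, fun k c => if_pos c, fun k c => if_neg c⟩
  have hR : RefOK q m w o ref := fun k => by
    by_cases c : zd (Bs m o k) a ≤ 37 * m
    · rw [hra k c]
      simp only [zd, Prod.fst_add, Prod.snd_add, Prod.fst_sub, Prod.snd_sub] at za ⊢
      omega
    · rw [hrb k c]
      simp only [zd, Prod.fst_add, Prod.snd_add, Prod.fst_sub, Prod.snd_sub] at zb ⊢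
      omega
  have refa : ∀ i ≤ 24, ∀ j ≤ 12, ref (ka + i • st4 ea + j • st4 fa) =
      pa + ((i * m) • st4 ea + (j * m) • st4 fa) := fun i hi j hj => by
    rw [hra _ (near_two ea fa hi hj A'), Bs_two]
    abel
  have refb : ∀ i ≤ 24, ∀ j ≤ 12, ref (kb + i • st4 eb + j • st4 fb) =
      pb + ((i * m) • st4 eb + (j * m) • st4 fb) := fun i hi j hj => by
    have := near_two eb fb hi hj B'
    have := zd_tri a (Bs m o (kb + i • st4 eb + j • st4 fb)) b
    have := zd_comm a (Bs m o (kb + i • st4 eb + j • st4 fb))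
    rw [hrb _ (by omega), Bs_two]
    abel
  obtain ⟨Nr, hN⟩ : ∃ Nr : ℤ × ℤ → Prop, ∀ v, Nr v ↔
      (v ∈ Λ ∨ zd v a ≤ 39 * m ∨ zd v b ≤ 39 * m) ∧ ∃ u ∈ Λ, zd v u ≤ 3 * m :=
    ⟨_, fun _ => Iff.rfl⟩
  have Cm : C * (2 * (3 * m)) = 6 * (C * m) := by ring
  have far : ∀ (x p : ℤ × ℤ) (e e' : Fin 4), Up Λ r x e e' → Deep Λ (2 * q) p → zd p x ≤ 8 * q →
      Deep Λ (2 * (3 * m)) (p + ((24 * m) • st4 e + (12 * m) • st4 e')) ∧
        zd (p + ((24 * m) • st4 e + (12 * m) • st4 e')) x ≤ 6 * (C * m) + 40 * m :=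
    fun x p e e' u d z => by
      have k := u.deep (d := 0) (i := 24 * m) (j := 12 * m) (s := 2 * (3 * m))
        (fun v hv => d v (by omega)) z (by omega) (by omega) (by omega) (Or.inl rfl)
      have := zd_two p e e' (24 * m) (12 * m)
      have := zd_tri (p + ((24 * m) • st4 e + (12 * m) • st4 e')) p x
      exact ⟨by rwa [zero_add] at k, by omega⟩
  have mid : Rch (Deep Λ (3 * m)) (ref (ka + 24 • st4 ea + 12 • st4 fa))
      (ref (kb + 24 • st4 eb + 12 • st4 fb)) := by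
    rw [refa 24 le_rfl 12 le_rfl, refb 24 le_rfl 12 le_rfl]
    refine deep_conn (s := 6 * (C * m) + 40 * m) hD (by omega) (by omega) (by omega) (by omega)
      (le_trans ?_ r1) hc (far a pa ea fa ua da za).1 (far a pa ea fa ua da za).2
      _ (far b pb eb fb ub db zb).1 (far b pb eb fb ub db zb).2
    have : C * 1 ≤ C * m := Nat.mul_le_mul_left _ (by omega)
    nlinarith
  obtain ⟨S, hS⟩ := exists_pth (E := Ed Λ q m w o Nr ref) (k := ka) (k' := kb)
    (((walk_stem2 h0 h1 hR ua da za (by omega) (by omega) A'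
      (fun v c c' => (hN v).2 ⟨Or.inr (Or.inl c), c'⟩) refa).trans
      (walk_deep h0 h1 hR (fun v c => (hN v).2 ⟨Or.inl c, v, c, by simp [zd]⟩) mid)).trans
      (walk_symm (walk_stem2 h0 h1 hR ub db zb (by omega) (by omega) B'
        (fun v c c' => (hN v).2 ⟨Or.inr (Or.inr c), c'⟩) refb)))
  have nr : ∀ v, cel m w o v ∈ S → Nr v := fun v hv => by
    rcases hS.mem hv with c | ⟨j, c, k1, -, -, -, k2⟩
    · have := tri_near h0 h1 (a := 0) (Or.inl c)
      obtain ⟨u, u1, u2⟩ := touch_near hb.touch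
      have := zd_tri v (Bs m o kb) b
      have := zd_tri v b u
      have := zd_comm b u
      have : zd v (Bs m o kb) ≤ m := by
        simp only [cel, Prod.ext_iff, two_fst, two_snd] at c
        have := (gr_eq_even (by omega) (by omega)).1 c.1
        have := (gr_eq_even (by omega) (by omega)).1 c.2
        simp only [zd, Bs]
        omega
      exact (hN v).2 ⟨Or.inr (Or.inr (by omega)), u, u1, by omega⟩
    · exact k1.1 v (k2.imp_right Or.inl)
  obtain ⟨U, hU⟩ : ∃ U, U = Λ.filter fun v => cel m w o v ∈ S := ⟨_, rfl⟩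
  have mU : ∀ v, v ∈ U ↔ v ∈ Λ ∧ cel m w o v ∈ S := fun v => by rw [hU, mem_filter]
  have sub : U ⊆ Λ := fun v c => ((mU v).1 c).1
  have boxa : ∀ v ∈ Λ, zd v a ≤ 16 * q + 1 → v ∈ U := fun v c c' => (mU v).2 ⟨c, by
    rw [cel_node (k := ka) h1 (by simp only [zd] at c'; omega)]
    exact hS.head⟩
  have boxb : ∀ v ∈ Λ, zd v b ≤ 16 * q + 1 → v ∈ U := fun v c c' => (mU v).2 ⟨c, by
    rw [cel_node (k := kb) h1 (by simp only [zd] at c'; omega)]
    exact hS.last⟩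
  have w0 : (0 : ℤ) < w := by omega
  have w1 : (w : ℤ) < m := by omega
  refine ⟨U.image (prj M), image_subset_image sub, ?_,
    side_of sub hΛ ha.touch (by omega) boxa, side_of sub hΛ hb.touch (by omega) boxb⟩
  refine corr_of (fun v c => hΛ v (sub c)) ?_ ?_ ?_ (fun y hy => boxb y ?_ ?_) (by omega) hT hM le_rfl
  · refine allC_sub (Y := (U : Set (ℤ × ℤ)))
      (allC_pre (stp_gr w0 w1 o.1) (stp_gr w0 w1 o.2) hS.allC) (fun v c => ((mU v).1 c).2)
      fun v c c' => ?_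
    have out : v ∉ Λ := fun k => c' ((mU v).2 ⟨k, c⟩)
    obtain ⟨y, y1, y2⟩ : ∃ y, (∀ u ∈ Λ, 3 * m < zd y u) ∧ Rch (· ∉ Λ) v y := by
      rcases ((hN v).1 (nr v c)).1 with k | k | k
      exacts [(out k).elim, ua.out out k (by omega), ub.out out k (by omega)]
    refine ⟨y, fun k => ?_, rch_mono (fun x k k' => k (sub k')) y2⟩
    obtain ⟨u, u1, u2⟩ := ((hN y).1 (nr y k)).2
    exact (y1 u u1).not_ge u2
  · refine ((cov_pre w0 w1 o.1 o.2 (q := q) (by omega) (by omega) hT S).or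
      ((cov_tr ha.tr).or (cov_tr hb.tr))).mono (fun v hv => ?_) le_rfl
    have bx := lay_box (fun v c => hΛ v (sub c)) hv
    obtain ⟨⟨f, f1, f2⟩, g, g1, g2⟩ := hv
    obtain ⟨f3, f4⟩ := (mU f).1 f1
    by_cases c : cel m w o g ∈ S
    · have out : g ∉ Λ := fun k => g1 ((mU g).2 ⟨k, c⟩)
      have key : ∀ x : ℤ × ℤ, zd g x ≤ 39 * m → zd v x ≤ r ∧ Lay Λ v := fun x k2 => by
        have := zd_tri v g x
        have := zd_comm v g
        exact ⟨by omega, ⟨f, f3, f2⟩, g, out, g2⟩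
      rcases ((hN g).1 (nr g c)).1 with k | k | k
      exacts [(out k).elim, Or.inr (Or.inl (key a k)), Or.inr (Or.inr (key b k))]
    · exact Or.inl ⟨bx, ⟨f, f4, f2⟩, g, c, g2⟩
  · have := pth_rch hS subset_rfl
    have e1 := refa 0 (by omega) 0 (by omega)
    have e2 := refb 0 (by omega) 0 (by omega)
    simp only [zero_smul, add_zero, zero_mul] at e1 e2
    rwa [e1, e2, ← hU] at this
  · exact db y hy
  · have := zd_tri y pb b
    omega

end Vale.Agent.P144C
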