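import Vale.Agent.P144C.Dom
import Vale.Agent.P144C.PathM
import Vale.Agent.P144C.L.Lat
import Vale.Agent.P144C.MkStmt2
import Vale.Agent.P144C.O.Hom
import Vale.Agent.P144C.O.One
import Vale.Agent.P144C.A.LB
import Vale.Agent.P144C.A.Ref
import Vale.Agent.P144C.N.Nrm
import Vale.Agent.P144C.G.Mod
import Vale.Agent.P144C.G.Mark
import Vale.Agent.P144C.P.Mas
import Vale.Agent.P144C.P.Pw
import Vale.Agent.P144C.GeoL2
import Vale.Agent.P144C.GeoT2

/-!
Universality with sign changes at corners.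
-/

namespace Vale.Agent.P144C

theorem homM : HomM := O.homM_of G.modM (O.oneM N.nrmM) P.lowM N.nrmM ndM (refM G.modM)

theorem posV : PosV := O.posV_of G.modM (O.oneM N.nrmM) P.lowM N.nrmM ndM (refM G.modM)

theorem latK : LatK2 := latK2 (mkStmt2 homM) (lb2 posV pathM)

theorem domC {K : ℝ} (hK : K < 1) : DomC K :=
  domC' latK P.pwM (geoL2 G.markM) (geoT2 G.markM) hK

end Vale.Agent.P144C
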