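import Vale.Agent.P144A.Gen

/-!
Sign changes at corners: marked half-edges whose sizes are not those of a flat wall.
-/

namespace Vale.Agent.P144C

open Finset Matrix Vale.Agent.P144Z

section

variable {M : ℕ} [NeZero M]

/-- `MkAt` with the error of rank one measured relatively to the ratio of the sizes. -/
structure MkAt2 (A : Gauge M) (ℓ ℓ' : ℕ) (s : Tor M × Fin 4) (u : Tor M × Fin 4 → ℝ)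
    (ν ν' c η : ℝ) : Prop where
  one : u s = 1
  pos : 0 < ν
  pos' : 0 < ν'
  dom : Dom A ℓ s.1 (Pi.single s 1) ν
  dom' : Dom A ℓ' s.1 (Pi.single s 1) ν'
  test : hsq A ℓ (ball s.1 (3 * ℓ)) u * ν ^ 2 ≤ c ^ 2 * ℓ
  rank : ∀ w, hsq A ℓ (ball s.1 (3 * ℓ)) (w - w s • u) * ℓ' * ν ^ 2 ≤
    η ^ 2 * ℓ * ν' ^ 2 * hsq A ℓ' (ball s.1 ℓ') w
  le : 16 * c * ν' ≤ ν
  ge : ν * ℓ ≤ c * ℓ' * ν'

/-- The same at all scales below `J`. -/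
structure MkCh2 (A : Gauge M) (L J : ℕ) (s : Tor M × Fin 4) (u : ℕ → Tor M × Fin 4 → ℝ)
    (ν : ℕ → ℝ) (c η : ℝ) : Prop where
  zero : MkAt2 A (sc L 0) (sc L 1) s (u 0) (ν 0) (ν 1) c c
  nu0 : ν 0 = √8
  pos : ∀ j, 1 ≤ j → j < J → MkAt2 A (sc L j) (sc L (j + 1)) s (u j) (ν j) (ν (j + 1)) c η
  hom : ∀ j, 1 ≤ j → j < J → Hom A s.1 (3 * sc L (j + 1)) (u j)

/-- Insertions at separated removed half-edges on the boundary. -/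
structure MkDat2 (P : Gauge M) {k : ℕ} (s : Fin k → Tor M × Fin 4)
    (u : Fin k → ℕ → Tor M × Fin 4 → ℝ) (ν : Fin k → ℕ → ℝ) (L J : ℕ) (c η : ℝ) : Prop where
  val : ∀ e, P e = 0 ∨ P e = 1
  rem : ∀ i, P (hedge (s i)) = 0
  pres : ∀ i, ∃ a, P (hedge ((s i).1, a)) = 1
  sep : ∀ i i', i ≠ i' → 16 * sc L J < tdist (s i).1 (s i').1
  ch : ∀ i, MkCh2 P L J (s i) (u i) (ν i) c η

end

/-- `MainJK` for the new marks. -/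
def MainJK2 (Q : Cls) (q : Par) (Zσ Zε : ℝ) (L : ℕ) (c' η₁ : ℝ) (m K₁ : ℕ) (δ : ℝ) : Prop :=
  ∀ K : ℕ, ∃ θ > 0, ∀ (N Λ : ℕ) (Γ : ℝ), 1 ≤ Γ → ∃ C : ℝ, ∀ ε > 0, ∃ J₀ : ℕ, ∀ J ≥ J₀,
    ∀ (M : ℕ) [NeZero M] (P : Gauge M) (v : Cor M) (k : ℕ) (s : Fin k → Tor M × Fin 4)
    (u : Fin k → ℕ → Tor M × Fin 4 → ℝ) (ν : Fin k → ℕ → ℝ) (o : ℝ)
    (O : Fin k → (Tor M × Fin 2 → Bool) → ℝ), v.Ok → v.Off P → v.Le K₁ δ → k ≤ N →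
    MkDat2 P s u ν L J c' η₁ → LocO s K O → |o| ≤ 1 → (∀ i n, |O i n - o| ≤ θ) →
    ∃ z : Fin k → ℝ, (∀ i, |z i - o| ≤ 1 / 2) ∧
      ∀ (B : Gauge M) (ι : Type) [Fintype ι] [DecidableEq ι] (y : ι → Tor M) (d : ι → Fin 2)
      (n : ℕ) (K' : ℝ), Fintype.card ι ≤ m → DomQ Q P B y d n L J N Λ Γ →
      (∀ φ, φ ⬝ᵥ φ ≤ (Γ * sc L J) ^ 2 * ((Dm (P * B) *ᵥ φ) ⬝ᵥ (Dm (P * B) *ᵥ φ))) →
      |Zw par0 (P * B) 1| ≤ K' * |Zw par0 P 1| →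
        |mixJV q v P B s O y d -
          (∏ i, z i) * Zσ ^ n * Zε ^ Fintype.card ι * mixJ par0 P B s 1 y d| ≤
          ε / (sc L J : ℝ) ^ Fintype.card ι * (K' * ∏ i, ν i J) ∧
        |mixJ par0 P B s 1 y d| ≤ C / (sc L J : ℝ) ^ Fintype.card ι * (K' * ∏ i, ν i J)

/-- `UnivJK` for the new marks. -/
def UnivJK2 (Q : Cls) (q : Par) (Zσ Zε : ℝ) (L : ℕ) (c' η₁ : ℝ) (m : ℕ) : Prop :=
  ∀ K₁ : ℕ, ∃ δ > (0 : ℝ), MainJK2 Q q Zσ Zε L c' η₁ m K₁ δ ∧ EnK Q q L K₁ δ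

open AN in
/-- `GenA` for the new marks. -/
def GenA2 : Prop :=
  ∃ ε₀ > (0 : ℝ), ∀ ε₁ > (0 : ℝ), ε₁ ≤ ε₀ → ∀ c' : ℝ, 1 ≤ c' → ∃ η₁ > (0 : ℝ), ∃ L₀ : ℕ,
    ∀ L ≥ L₀, ∃ kf : ℕ → ℕ → ℕ,
    (∀ m N k, kf m N ≤ k → UnivU (QU L ε₁ k N) par0 1 1 L m ∧
      ∃ Zσ Zε : ℝ, UnivJK2 (QU L ε₁ k N) par0 Zσ Zε L c' η₁ m) ∧
    ∀ ε > 0, ∃ η₀ > 0, ∀ R : ℕ, ∃ δ₀ > 0, ∀ q : Par, q.R = R → Crit L q η₀ δ₀ →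
      Ch L q ∧ |Real.exp (sg L q) - 1| < ε ∧ |ze L q - 1| < ε ∧
        MainOK q (Real.exp (sg L q)) (ze L q) ∧
        ∀ m N k, kf m N ≤ k → UnivU (QU L ε₁ k N) q (Real.exp (sg L q)) (ze L q) L m ∧
          UnivJK2 (QU L ε₁ k N) q (Real.exp (sg L q)) (ze L q) L c' η₁ m

end Vale.Agent.P144C
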