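import Vale.Agent.P144C.Mk.Rk

/-!
From the reference solution to the chain of sizes.
-/

namespace Vale.Agent.P144C

open Finset Matrix Vale.Agent.P144Z Vale.Agent.P144Z.Tele

namespace Mk

variable {M : ℕ} [NeZero M]

variable {A : Gauge M} {t : Tor M × Fin 4} {φ₀ : Tor M × Fin 4 → ℝ} {s₀ ρm : ℕ} {C c : ℝ}
  {Kf : ℝ → ℕ}

/-- The size at the scale `ℓ`. -/
noncomputable def nu (t : Tor M × Fin 4) (φ₀ : Tor M × Fin 4 → ℝ) (P : ℝ) (ℓ : ℕ) : ℝ :=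
  √(P ^ 2 * ℓ / l2sq (ball t.1 ℓ) φ₀)

namespace Hy

variable (h : Hy A t φ₀ s₀ ρm C c Kf)
include h

theorem pos2 (s : ℕ) : 0 < l2sq (ball t.1 s) φ₀ := zero_lt_one.trans_le (h.one_le2 s)

theorem nu_sq (P : ℝ) (ℓ : ℕ) : nu t φ₀ P ℓ ^ 2 * l2sq (ball t.1 ℓ) φ₀ = P ^ 2 * ℓ := by
  have := h.pos2 ℓ
  rw [nu, Real.sq_sqrt (by positivity)]
  field_simp

theorem nu_pos {P : ℝ} (hP : 1 ≤ P) {ℓ : ℕ} (hl : 0 < ℓ) : 0 < nu t φ₀ P ℓ := by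
  have := h.pos2 ℓ
  have : (0 : ℝ) < ℓ := by exact_mod_cast hl
  exact Real.sqrt_pos.2 (by positivity)

theorem nu_dom {P : ℝ} (hP : P = 7105 * C ^ 7 * c ^ 2) {ℓ : ℕ} (h1 : s₀ ≤ ℓ) (h2 : ℓ ≤ ρm) :
    Dom A ℓ t.1 (Pi.single t 1) (nu t φ₀ P ℓ) := fun w => by
  rw [single_one_dotProduct, hP]
  have k1 := mul_le_mul_of_nonneg_right (h.dom h1 h2 w) (Nat.cast_nonneg (α := ℝ) ℓ)
  have k2 := E4.hsq_mono A (Nat.cast_nonneg ℓ) le_rfl (E3.ball_mono t.1 (by omega : ℓ ≤ 2 * ℓ)) w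
  refine le_trans ?_ (mul_le_mul_of_nonneg_left k2 (sq_nonneg _))
  refine le_of_mul_le_mul_right ?_ (h.pos2 ℓ)
  rw [mul_right_comm (nu _ _ _ _ ^ 2), h.nu_sq]
  linarith

theorem one_le_P : 1 ≤ 7105 * C ^ 7 * c ^ 2 := by
  have := one_le_mul_of_one_le_of_one_le (one_le_pow₀ (n := 7) h.hC) (one_le_pow₀ (n := 2) h.hc)
  linarith

theorem atj {P δ η ε : ℝ} (hP : P = 7105 * C ^ 7 * c ^ 2) (hδ : 0 < δ) (hδ1 : δ ≤ 1)
    (hη : 25 * C * P * δ ≤ η) (hε : 0 < ε) (hε1 : 256 * (6 * C * P) ^ 2 * ε ≤ 1) {ℓ ℓ' : ℕ}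
    (h1 : s₀ ≤ ℓ) (h2 : (((Kf (δ ^ 2) + 2) * (3 * ℓ) : ℕ) : ℝ) ≤ δ ^ 2 * ℓ') (h3 : Kf ε * ℓ ≤ ℓ')
    (h4 : 4 * ℓ ≤ ℓ') (h5 : ℓ' ≤ ρm) :
    MkAt2 A ℓ ℓ' t φ₀ (nu t φ₀ P ℓ) (nu t φ₀ P ℓ') (6 * C * P) η := by
  have hC := h.hC
  have h8 := h.h8
  have hP1 : 1 ≤ P := hP ▸ h.one_le_P
  have p := h.nu_pos hP1 (ℓ := ℓ) (by omega)
  have p' := h.nu_pos hP1 (ℓ := ℓ') (by omega)
  have q := h.nu_sq P ℓ
  have q' := h.nu_sq P ℓ'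
  have n := h.pos2 ℓ
  have n' := h.pos2 ℓ'
  have hl : (0 : ℝ) < ℓ := by exact_mod_cast (by omega : 0 < ℓ)
  have hl' : (0 : ℝ) < ℓ' := by exact_mod_cast (by omega : 0 < ℓ')
  set ν := nu t φ₀ P ℓ
  set ν' := nu t φ₀ P ℓ'
  set N := l2sq (ball t.1 ℓ) φ₀ with hN
  set N' := l2sq (ball t.1 ℓ') φ₀ with hN'
  refine ⟨h.rf.one, p, p', h.nu_dom hP h1 (by omega), h.nu_dom hP (by omega) h5, ?_,
    fun w => ?_, ?_, ?_⟩
  · rw [E4.hsq_of_D A _ fun x hx => h.rf.hom x (by omega)]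
    have k1 := mul_le_mul_of_nonneg_right (h.dbl2 h1 (r := 3 * ℓ) (by omega) le_rfl (by omega))
      (sq_nonneg ν)
    have k2 : C * (P ^ 2 * ℓ) ≤ C ^ 2 * (P ^ 2 * ℓ) :=
      mul_le_mul_of_nonneg_right h.CC (by positivity)
    have k3 : 27 * C * N * ν ^ 2 = 27 * (C * (P ^ 2 * ℓ)) := by rw [← q]; ring
    have k4 : 0 ≤ C ^ 2 * (P ^ 2 * ℓ) := by positivity
    linarith
  · have k1 := h.rk hδ hδ1 h1 h2 h5 w
    rw [← hP] at k1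
    have k0 := RN.hsq_nonneg A ℓ' (ball t.1 ℓ') w
    have k2 : (25 * C * P * δ) ^ 2 * N * hsq A ℓ' (ball t.1 ℓ') w ≤
        η ^ 2 * N * hsq A ℓ' (ball t.1 ℓ') w := by gcongr
    have k3 := mul_le_mul_of_nonneg_right (k1.trans k2) (by positivity : 0 ≤ P ^ 2 * ℓ * ℓ')
    refine le_of_mul_le_mul_right ?_ (mul_pos n n')
    calc _ = hsq A ℓ (ball t.1 (3 * ℓ)) (w - w t • φ₀) * N' * (ν ^ 2 * N * ℓ') := by ring
      _ ≤ η ^ 2 * N * hsq A ℓ' (ball t.1 ℓ') w * (P ^ 2 * ℓ * ℓ') := by rw [q]; exact k3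
      _ = η ^ 2 * N * hsq A ℓ' (ball t.1 ℓ') w * (ν' ^ 2 * N' * ℓ) := by rw [q']; ring
      _ = _ := by ring
  · have k1 := h.rf.upp ε hε ℓ ℓ' h1 h3 h5
    refine le_of_sq p.le (le_of_mul_le_mul_right ?_ (mul_pos n n'))
    calc _ = 256 * (6 * C * P) ^ 2 * (ν' ^ 2 * N') * N := by ring
      _ = 256 * (6 * C * P) ^ 2 * P ^ 2 * (N * ℓ') := by rw [q']; ring
      _ ≤ 256 * (6 * C * P) ^ 2 * P ^ 2 * (ε * ℓ * N') :=
        mul_le_mul_of_nonneg_left k1 (by positivity)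
      _ = 256 * (6 * C * P) ^ 2 * ε * (P ^ 2 * ℓ * N') := by ring
      _ ≤ P ^ 2 * ℓ * N' := mul_le_of_le_one_left (by positivity) hε1
      _ = _ := by rw [← q]; ring
  · have k1 := h.rf.low ℓ ℓ' h1 (by omega) h5
    have k2 : C ≤ (6 * C * P) ^ 2 := by
      have : C ≤ C * P := le_mul_of_one_le_right (by linarith) hP1
      nlinarith
    refine le_of_sq (by positivity) (le_of_mul_le_mul_right ?_ (mul_pos n n'))
    calc _ = ν ^ 2 * N * ℓ ^ 2 * N' := by ring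
      _ = P ^ 2 * (N' * ℓ ^ 3) := by rw [q]; ring
      _ ≤ P ^ 2 * ((6 * C * P) ^ 2 * ℓ' ^ 3 * N) := by
        refine mul_le_mul_of_nonneg_left (k1.trans ?_) (sq_nonneg _)
        rw [l2, ← hN]
        gcongr
      _ = (6 * C * P) ^ 2 * ℓ' ^ 2 * N * (P ^ 2 * ℓ') := by ring
      _ = _ := by rw [← q']; ring

theorem at0 {P δ ε : ℝ} (hP : P = 7105 * C ^ 7 * c ^ 2) (hδ : 0 < δ) (hδ1 : δ ≤ 1)
    (hη : 25 * C * P * δ ≤ 1) (hε : 0 < ε) (hε1 : 256 * (6 * C * P) ^ 2 * P ^ 2 * s₀ * ε ≤ 1)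
    {ℓ' : ℕ} (h2 : (((Kf (δ ^ 2) + 2) * (3 * s₀) : ℕ) : ℝ) ≤ δ ^ 2 * ℓ') (h3 : Kf ε * s₀ ≤ ℓ')
    (h4 : 4 * s₀ ≤ ℓ') (h5 : ℓ' ≤ ρm) :
    MkAt2 A 8 ℓ' t φ₀ √8 (nu t φ₀ P ℓ') (6 * C * P) (6 * C * P) := by
  have hC := h.hC
  have h8 := h.h8
  have hP1 : 1 ≤ P := hP ▸ h.one_le_P
  have p' := h.nu_pos hP1 (ℓ := ℓ') (by omega)
  have q' := h.nu_sq P ℓ'
  have n' := h.pos2 ℓ'
  have n₀ := h.one_le2 s₀
  have b₀ : l2sq (ball t.1 s₀) φ₀ ≤ C := h.rf.bot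
  have hl' : (0 : ℝ) < ℓ' := by exact_mod_cast (by omega : 0 < ℓ')
  have hs : (8 : ℝ) ≤ s₀ := by exact_mod_cast h8
  have q8 : √(8 : ℝ) ^ 2 = 8 := Real.sq_sqrt (by norm_num)
  have hCP : C ≤ C * P := le_mul_of_one_le_right (by linarith) hP1
  have hCP2 : C ^ 2 ≤ (C * P) ^ 2 := pow_le_pow_left₀ (by linarith) hCP 2
  have hP2 : 1 ≤ P ^ 2 := one_le_pow₀ hP1
  have hB : ball t.1 (3 * 8) ⊆ ball t.1 (3 * s₀) := E3.ball_mono _ (by omega)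
  have hcc : C ^ 2 ≤ (6 * C * P) ^ 2 * P ^ 2 :=
    le_trans (by nlinarith) (le_mul_of_one_le_right (sq_nonneg _) hP2)
  set ν' := nu t φ₀ P ℓ'
  set N' := l2sq (ball t.1 ℓ') φ₀ with hN'
  refine ⟨h.rf.one, by positivity, p', by exact_mod_cast RN.dom_single A 8 t,
    h.nu_dom hP (by omega) h5, ?_, fun w => ?_, ?_, ?_⟩
  · rw [E4.hsq_of_D A _ fun x hx => h.rf.hom x (by omega), q8]
    have k1 := (E4.l2sq_mono hB φ₀).trans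
      (h.dbl2 le_rfl (r := 3 * s₀) (by omega) le_rfl (by omega))
    have k2 := mul_le_mul_of_nonneg_left b₀ (by linarith : 0 ≤ 27 * C)
    push_cast
    nlinarith [sq_nonneg (C * P)]
  · have k1 := h.rk hδ hδ1 le_rfl h2 h5 w
    rw [← hP] at k1
    have k0 := RN.hsq_nonneg A ℓ' (ball t.1 ℓ') w
    have k2 : (25 * C * P * δ) ^ 2 * l2sq (ball t.1 s₀) φ₀ * hsq A ℓ' (ball t.1 ℓ') w ≤
        1 ^ 2 * ((6 * C * P) ^ 2 * P ^ 2) * hsq A ℓ' (ball t.1 ℓ') w := by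
      have := (b₀.trans h.CC).trans hcc
      gcongr
    have k4 := E4.hsq_mono A (ℓ := ((8 : ℕ) : ℝ)) (ρ := s₀) (by norm_num) (by exact_mod_cast h8) hB
      (w - w t • φ₀)
    have k5 := ((mul_le_mul_of_nonneg_right k4 n'.le).trans k1).trans k2
    have k3 := mul_le_mul_of_nonneg_right k5 (by positivity : (0 : ℝ) ≤ 8 * ℓ')
    refine le_of_mul_le_mul_right ?_ n'
    rw [q8]
    calc _ = hsq A ((8 : ℕ) : ℝ) (ball t.1 (3 * 8)) (w - w t • φ₀) * N' * (8 * ℓ') := by ring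
      _ ≤ _ := k3
      _ = (6 * C * P) ^ 2 * 8 * hsq A ℓ' (ball t.1 ℓ') w * (ν' ^ 2 * N') := by rw [q']; ring
      _ = _ := by push_cast; ring
  · have k1 := h.rf.upp ε hε s₀ ℓ' le_rfl h3 h5
    have k2 : (ℓ' : ℝ) ≤ ε * s₀ * N' := (le_mul_of_one_le_left hl'.le n₀).trans k1
    refine le_of_sq (by positivity) (le_of_mul_le_mul_right ?_ n')
    rw [q8]
    calc _ = 256 * (6 * C * P) ^ 2 * (ν' ^ 2 * N') := by ring
      _ = 256 * (6 * C * P) ^ 2 * P ^ 2 * ℓ' := by rw [q']; ring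
      _ ≤ 256 * (6 * C * P) ^ 2 * P ^ 2 * (ε * s₀ * N') :=
        mul_le_mul_of_nonneg_left k2 (by positivity)
      _ = 256 * (6 * C * P) ^ 2 * P ^ 2 * s₀ * ε * N' := by ring
      _ ≤ 8 * N' := mul_le_mul_of_nonneg_right (by linarith) n'.le
  · have k1 := h.rf.low s₀ ℓ' le_rfl (by omega) h5
    have k2 : N' * 8 ^ 3 ≤ N' * (s₀ : ℝ) ^ 3 := by gcongr
    have k3 : C * ℓ' ^ 3 * l2sq (ball t.1 s₀) φ₀ ≤ C * ℓ' ^ 3 * C := by gcongr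
    have k4 := mul_le_mul_of_nonneg_right hcc (by positivity : (0 : ℝ) ≤ ℓ' ^ 3)
    refine le_of_sq (by positivity) (le_of_mul_le_mul_right ?_ n')
    rw [mul_pow, q8]
    calc _ = N' * 8 ^ 3 := by push_cast; ring
      _ ≤ (6 * C * P) ^ 2 * P ^ 2 * ℓ' ^ 3 := by linarith [(k2.trans k1).trans k3]
      _ = (6 * C * P) ^ 2 * ℓ' ^ 2 * (P ^ 2 * ℓ') := by ring
      _ = _ := by rw [← q']; ring

end Hy

end Mk

open Mk in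
theorem mkAbs : MkAbs := by
  intro C c₁ s₀ Kf hC hc h8
  obtain ⟨P, hP⟩ : ∃ P : ℝ, P = 7105 * C ^ 7 * c₁ ^ 2 := ⟨_, rfl⟩
  have hP1 : 1 ≤ P := by
    have := one_le_mul_of_one_le_of_one_le (one_le_pow₀ (n := 7) hC) (one_le_pow₀ (n := 2) hc)
    linarith
  have hCP : 1 ≤ C * P := one_le_mul_of_one_le_of_one_le hC hP1
  refine ⟨6 * C * P, by linarith, fun η hη => ?_⟩
  obtain ⟨δ, hδ⟩ : ∃ δ : ℝ, δ = min η 1 / (25 * C * P) := ⟨_, rfl⟩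
  have hm : 0 < min η 1 := lt_min hη one_pos
  have hδ0 : 0 < δ := by rw [hδ]; positivity
  have hδe : 25 * C * P * δ = min η 1 := by rw [hδ]; field_simp
  have hδ1 : δ ≤ 1 := by nlinarith [min_le_right η 1]
  have hs : (1 : ℝ) ≤ s₀ := by exact_mod_cast (by omega : 1 ≤ s₀)
  obtain ⟨ε, hε⟩ : ∃ ε : ℝ, ε = 1 / (256 * (6 * C * P) ^ 2 * P ^ 2 * s₀) := ⟨_, rfl⟩
  have hε0 : 0 < ε := by rw [hε]; positivity
  have hεe : 256 * (6 * C * P) ^ 2 * P ^ 2 * s₀ * ε = 1 := by rw [hε]; field_simp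
  have hε1 : 256 * (6 * C * P) ^ 2 * ε ≤ 1 := by
    have := one_le_mul_of_one_le_of_one_le (one_le_pow₀ (n := 2) hP1) hs
    have := mul_le_mul_of_nonneg_left this (by positivity : 0 ≤ 256 * (6 * C * P) ^ 2 * ε)
    linarith
  obtain ⟨L₁, hL₁⟩ := exists_nat_ge ((((Kf (δ ^ 2) + 2) * 3 : ℕ) : ℝ) / δ ^ 2)
  rw [div_le_iff₀ (by positivity)] at hL₁
  have key : ∀ ℓ ℓ' : ℕ, (L₁ + Kf ε + 4) * ℓ ≤ ℓ' →
      (((Kf (δ ^ 2) + 2) * (3 * ℓ) : ℕ) : ℝ) ≤ δ ^ 2 * ℓ' ∧ Kf ε * ℓ ≤ ℓ' ∧ 4 * ℓ ≤ ℓ' :=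
    fun ℓ ℓ' h => by
      have e1 : L₁ * ℓ ≤ ℓ' := le_trans (Nat.mul_le_mul_right _ (by omega)) h
      have e2 : (L₁ : ℝ) * ℓ ≤ ℓ' := by exact_mod_cast e1
      refine ⟨?_, le_trans (Nat.mul_le_mul_right _ (by omega)) h,
        le_trans (Nat.mul_le_mul_right _ (by omega)) h⟩
      have e3 := mul_le_mul_of_nonneg_right hL₁ (Nat.cast_nonneg (α := ℝ) ℓ)
      have e4 := mul_le_mul_of_nonneg_left e2 (sq_nonneg δ)
      push_cast at e3 ⊢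
      linarith
  refine ⟨(L₁ + Kf ε + 4) * s₀, fun L hL M _ A t φ₀ J _ hJ hR hS => ?_⟩
  have h : Hy A t φ₀ s₀ (3 * sc L J) C c₁ Kf := ⟨hR, hS, hC, hc, h8⟩
  have hL1 : L₁ + Kf ε + 4 ≤ L := le_trans (Nat.le_mul_of_pos_right _ (by omega)) hL
  have hL2 : s₀ ≤ L := le_trans (Nat.le_mul_of_pos_left _ (by omega)) hL
  have s1 : sc L 1 = 8 * L := by simp [sc]
  have mono : ∀ {i j : ℕ}, i ≤ j → sc L i ≤ sc L j := fun hij => FM.sc_mono (by omega) hij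
  refine ⟨fun _ => φ₀, fun j => if j = 0 then √8 else nu t φ₀ P (sc L j), ?_, by simp,
    fun j h1 h2 => ?_, fun j h1 h2 x hx => hR.hom x (hx.trans ?_)⟩
  · obtain ⟨k1, k2, k3⟩ := key s₀ (sc L 1) (by omega)
    have := h.at0 hP hδ0 hδ1 (hδe ▸ min_le_right η 1) hε0 hεe.le k1 k2 k3
      (by have := mono hJ; omega)
    simpa [FM.sc_zero] using this
  · obtain ⟨k1, k2, k3⟩ := key (sc L j) (sc L (j + 1))
      (by rw [FM.sc_succ]; exact Nat.mul_le_mul_right _ hL1)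
    have := h.atj hP hδ0 hδ1 (hδe ▸ min_le_left η 1) hε0 hε1 (by have := mono h1; omega) k1 k2 k3
      (by have := mono (by omega : j + 1 ≤ J); omega)
    rw [if_neg (by omega), if_neg (by omega)]
    exact this
  · have := mono (by omega : j + 1 ≤ J)
    omega

end Vale.Agent.P144C
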