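import Vale.Agent.P144C.Stmt
import Mathlib.Analysis.Complex.Convex

/-!
The rectangle with the sign changes at two opposite corners.
-/

namespace Vale.Agent.P144C

open Metric Vale.Agent.P144 Vale.Agent.P144Z

/-- The open rectangle with sides `x` and `y`. -/
def rect (x y : ℝ) : Set ℂ := {w | 0 < w.re ∧ w.re < x ∧ 0 < w.im ∧ w.im < y}

theorem rect_open (x y : ℝ) : IsOpen (rect x y) :=
  (isOpen_lt continuous_const Complex.continuous_re).inter
    ((isOpen_lt Complex.continuous_re continuous_const).inter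
      ((isOpen_lt continuous_const Complex.continuous_im).inter
        (isOpen_lt Complex.continuous_im continuous_const)))

theorem rect_bdd (x y : ℝ) : Bornology.IsBounded (rect x y) :=
  (isBounded_ball (x := (0 : ℂ)) (r := x + y)).subset fun w ⟨a, b, c, d⟩ => by
    have := Complex.norm_le_abs_re_add_abs_im w
    rw [abs_of_pos a, abs_of_pos c] at this
    rw [mem_ball_zero_iff]
    linarith

theorem rect_convex (x y : ℝ) : Convex ℝ (rect x y) :=
  (convex_halfSpace_re_gt 0).inter ((convex_halfSpace_re_lt x).inter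
    ((convex_halfSpace_im_gt 0).inter (convex_halfSpace_im_lt y)))

theorem quad {κ s : ℝ} (hκ : 0 ≤ κ) (hs : s = 1 ∨ s = -1) (z : ℂ) :
    ‖(⟨s * (√2 / 2), s * (√2 / 2)⟩ : ℂ)‖ = 1 ∧
      Cone {w | 0 < s * (w - z).re ∧ 0 < s * (w - z).im} ⟨s * (√2 / 2), s * (√2 / 2)⟩ (√2 / 2) ∧
      Two κ {w | 0 < s * (w - z).re ∧ 0 < s * (w - z).im} := by
  have h2 := Real.mul_self_sqrt (show (0 : ℝ) ≤ 2 by norm_num)
  have h0 : 0 < √2 := by positivity
  have s2 : s * s = 1 := by rcases hs with rfl | rfl <;> norm_num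
  refine ⟨?_, fun w hw v hv => ?_, {w | 0 < s * (w - z).re}, {w | 0 < s * (w - z).im}, ⟨s, 0⟩,
    ⟨0, s⟩, ?_, ?_, fun w hw v hv => ?_, fun w hw v hv => ?_, rfl⟩
  · rw [Complex.norm_eq_sqrt_sq_add_sq, Real.sqrt_eq_one]
    simp only
    linear_combination (√2 * √2 / 2) * s2 + h2 / 2
  · have a1 : ‖v‖ ≤ s * v.re + s * v.im := le_of_mul_le_mul_left (by
      simp only at hv
      linarith) (show 0 < √2 / 2 by positivity)
    have a2 := Complex.sq_norm v
    have a3 := norm_nonneg v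
    rw [Complex.normSq_apply] at a2
    have a4 : (s * v.re) ^ 2 + (s * v.im) ^ 2 = ‖v‖ ^ 2 := by
      linear_combination (v.re ^ 2 + v.im ^ 2) * s2 - a2
    have a5 : 0 ≤ s * v.re * (s * v.im) := by nlinarith
    have a6 : 0 ≤ s * v.re := by nlinarith
    have a7 : 0 ≤ s * v.im := by nlinarith
    simp only [Set.mem_ofPred_eq, Complex.sub_re, Complex.add_re, Complex.sub_im,
      Complex.add_im] at hw ⊢
    constructor <;> linarith [hw.1, hw.2]
  · rw [Complex.norm_eq_sqrt_sq_add_sq, Real.sqrt_eq_one]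
    simp only
    linear_combination s2
  · rw [Complex.norm_eq_sqrt_sq_add_sq, Real.sqrt_eq_one]
    simp only
    linear_combination s2
  · have := mul_nonneg hκ (norm_nonneg v)
    simp only [Set.mem_ofPred_eq, Complex.sub_re, Complex.add_re] at hw hv ⊢
    linarith
  · have := mul_nonneg hκ (norm_nonneg v)
    simp only [Set.mem_ofPred_eq, Complex.sub_im, Complex.add_im] at hw hv ⊢
    linarith

theorem far_quad {D : Set ℂ} (hD : D.Nonempty) {s : ℝ} (hs : s = 1 ∨ s = -1) {z w : ℂ}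
    (h : ∀ d ∈ D, 0 < s * (d - z).re ∧ 0 < s * (d - z).im) (h1 : s * (w - z).re ≤ 0)
    (h2 : s * (w - z).im ≤ 0) : 1 * ‖w - z‖ ≤ infDist w D := by
  rw [one_mul, le_infDist hD]
  intro d hd
  obtain ⟨a, b⟩ := h d hd
  rw [dist_eq_norm, Complex.norm_eq_sqrt_sq_add_sq, Complex.norm_eq_sqrt_sq_add_sq]
  refine Real.sqrt_le_sqrt ?_
  simp only [Complex.sub_re, Complex.sub_im] at *
  rcases hs with rfl | rfl <;> nlinarith

/-- The sign changes at the corners `0` and `x + i y`. -/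
theorem rect_pwl {x y κ : ℝ} (hx : 0 < x) (hy : 0 < y) (hκ : 0 ≤ κ) :
    PWL (Two κ) (rect x y) {w | w.re * y < w.im * x} := by
  intro z hz
  have h0 : 0 < √2 := by positivity
  have ne : (rect x y).Nonempty := ⟨⟨x / 2, y / 2⟩, half_pos hx, half_lt_self hx, half_pos hy,
    half_lt_self hy⟩
  rw [(rect_open x y).frontier_eq] at hz
  have cl : 0 ≤ z.re ∧ z.re ≤ x ∧ 0 ≤ z.im ∧ z.im ≤ y :=
    closure_minimal (t := {w : ℂ | 0 ≤ w.re ∧ w.re ≤ x ∧ 0 ≤ w.im ∧ w.im ≤ y})
      (fun w (k : w ∈ rect x y) => ⟨k.1.le, k.2.1.le, k.2.2.1.le, k.2.2.2.le⟩)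
      ((isClosed_le continuous_const Complex.continuous_re).inter
        ((isClosed_le Complex.continuous_re continuous_const).inter
          ((isClosed_le continuous_const Complex.continuous_im).inter
            (isClosed_le Complex.continuous_im continuous_const)))) hz.1
  have c1 : Continuous fun w : ℂ => w.re * y := by fun_prop
  have c2 : Continuous fun w : ℂ => w.im * x := by fun_prop
  rcases lt_trichotomy (z.re * y) (z.im * x) with h | h | h
  · obtain ⟨r, hr, k⟩ := Metric.isOpen_iff.1 (isOpen_lt c1 c2) z h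
    exact ⟨r, hr, Or.inl fun w hw => k hw.1⟩
  swap
  · obtain ⟨r, hr, k⟩ := Metric.isOpen_iff.1 (isOpen_lt c2 c1) z h
    exact ⟨r, hr, Or.inr (Or.inl fun w hw c => lt_asymm (show w.im * x < w.re * y from k hw.1) c)⟩
  have bl : ∀ w ∈ ball z (min x y), |(w - z).re| < x ∧ |(w - z).im| < y := fun w hw => by
    rw [mem_ball_iff_norm, lt_min_iff] at hw
    exact ⟨(Complex.abs_re_le_norm _).trans_lt hw.1, (Complex.abs_im_le_norm _).trans_lt hw.2⟩
  have cs : z.re = 0 ∧ z.im = 0 ∨ z.re = x ∧ z.im = y := by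
    have n := hz.2
    simp only [rect, Set.mem_ofPred_eq, not_and_or, not_lt] at n
    obtain ⟨a, b, c, d⟩ := cl
    rcases n with n | n | n | n
    · have e : z.re = 0 := le_antisymm n a
      exact Or.inl ⟨e, by rw [e, zero_mul] at h; nlinarith⟩
    · have e : z.re = x := le_antisymm b n
      exact Or.inr ⟨e, by rw [e] at h; nlinarith⟩
    · have e : z.im = 0 := le_antisymm n c
      exact Or.inl ⟨by rw [e, zero_mul] at h; nlinarith, e⟩
    · have e : z.im = y := le_antisymm d n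
      exact Or.inr ⟨by rw [e] at h; nlinarith, e⟩
  obtain ⟨s, hs, k1, k2⟩ : ∃ s : ℝ, (s = 1 ∨ s = -1) ∧
      (∀ d ∈ rect x y, 0 < s * (d - z).re ∧ 0 < s * (d - z).im) ∧
      ∀ w ∈ ball z (min x y), 0 < s * (w - z).re → 0 < s * (w - z).im → w ∈ rect x y := by
    rcases cs with ⟨a, b⟩ | ⟨a, b⟩
    · refine ⟨1, Or.inl rfl, fun d ⟨d1, _, d2, _⟩ => by simp [a, b, d1, d2], fun w hw k1 k2 => ?_⟩
      obtain ⟨c, d⟩ := bl w hw
      simp only [Complex.sub_re, Complex.sub_im, a, b, sub_zero, one_mul] at c d k1 k2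
      exact ⟨k1, (abs_lt.1 c).2, k2, (abs_lt.1 d).2⟩
    · refine ⟨-1, Or.inr rfl, fun d ⟨_, d1, _, d2⟩ => by simp [a, b, d1, d2], fun w hw k1 k2 => ?_⟩
      obtain ⟨c, d⟩ := bl w hw
      simp only [Complex.sub_re, Complex.sub_im, a, b] at c d k1 k2
      exact ⟨by linarith [(abs_lt.1 c).1], by linarith, by linarith [(abs_lt.1 d).1], by linarith⟩
  obtain ⟨q1, q2, q3⟩ := quad hκ hs z
  refine ⟨min x y, lt_min hx hy, Or.inr (Or.inr ⟨_, _, ⟨-(√2 / 2), √2 / 2⟩, 1, q1, ?_, one_pos, q2, q3,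
    Set.ext fun w => ⟨fun hw => ⟨k1 w hw.1, hw.2⟩, fun hw => ⟨k2 w hw.2 hw.1.1 hw.1.2, hw.2⟩⟩,
    fun w hw hd => ?_⟩)⟩
  · rcases hs with rfl | rfl
    · exact Or.inl (by apply Complex.ext <;> simp)
    · exact Or.inr (by apply Complex.ext <;> simp)
  · have e : w.re * y < w.im * x ↔ (w - z).re * y < (w - z).im * x := by
      simp only [Complex.sub_re, Complex.sub_im]
      constructor <;> intro <;> linarith
    have n1 : ¬ (0 < s * (w - z).re ∧ 0 < s * (w - z).im) := fun c => hw.2 (k2 w hw.1 c.1 c.2)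
    have n2 : ¬ (s * (w - z).re ≤ 0 ∧ s * (w - z).im ≤ 0) := fun c =>
      (far_quad ne hs k1 c.1 c.2).not_gt hd
    rw [Set.mem_ofPred_eq, e]
    generalize (w - z).re = a at n1 n2 ⊢
    generalize (w - z).im = b at n1 n2 ⊢
    simp only [not_and_or, not_lt, not_le] at n1 n2 ⊢
    have : (a ≤ 0 ∧ 0 ≤ b ∧ a < b) ∨ (b ≤ 0 ∧ 0 ≤ a ∧ b < a) := by
      rcases hs with rfl | rfl <;> rcases n1 with n1 | n1 <;> rcases n2 with n2 | n2 <;>
        first | (exfalso; linarith) | exact Or.inl ⟨by linarith, by linarith, by linarith⟩ |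
          exact Or.inr ⟨by linarith, by linarith, by linarith⟩
    rcases this with ⟨a1, a2, a3⟩ | ⟨a1, a2, a3⟩
    · refine iff_of_true ?_ (by nlinarith)
      rcases a1.eq_or_lt with c | c
      · rw [c, zero_mul]
        exact mul_pos (by linarith) hx
      · nlinarith
    · exact iff_of_false (by nlinarith) (by nlinarith)

end Vale.Agent.P144C
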